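import Vale.Agent.P011N.E2.Simp

/-!
The grading of a Lie subalgebra of an associative algebra by a pair of orthogonal idempotents.
-/

namespace Vale.Agent.P011N.Cl

variable {F R : Type} [Field F] [Ring R] [Algebra F R]

variable (F) in
/-- The elements which are strictly triangular with respect to `e`, `1 - e - f`, `f`. -/
def upS (e f : R) : Submodule F R where
  carrier := {n | n * e = 0 ∧ f * n = 0 ∧ (1 - e) * n * (1 - f) = 0}
  zero_mem' := by simp
  add_mem' := fun {n m} hn hm => by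
    refine ⟨by rw [add_mul, hn.1, hm.1, add_zero], by rw [mul_add, hn.2.1, hm.2.1, add_zero], ?_⟩
    rw [mul_add, add_mul, hn.2.2, hm.2.2, add_zero]
  smul_mem' := fun t n hn => by
    refine ⟨by rw [smul_mul_assoc, hn.1, smul_zero], by rw [mul_smul_comm, hn.2.1, smul_zero], ?_⟩
    rw [mul_smul_comm, smul_mul_assoc, hn.2.2, smul_zero]

variable {e f n m z : R}

theorem mem_upS : n ∈ upS F e f ↔ n * e = 0 ∧ f * n = 0 ∧ (1 - e) * n * (1 - f) = 0 := Iff.rfl

theorem upS_left (hn : n ∈ upS F e f) : (1 - e) * n = (1 - e) * n * f := by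
  have := hn.2.2
  rwa [mul_sub, mul_one, sub_eq_zero] at this

theorem upS_mul (hn : n ∈ upS F e f) (hm : m ∈ upS F e f) : n * m ∈ upS F e f := by
  refine ⟨by rw [mul_assoc, hm.1, mul_zero], by rw [← mul_assoc, hn.2.1, zero_mul], ?_⟩
  rw [← mul_assoc, upS_left hn, mul_assoc _ f, hm.2.1, mul_zero, zero_mul]

theorem upS_cube (hn : n ∈ upS F e f) : n ^ 3 = 0 := by
  have h1 : n = n * (1 - e) := by rw [mul_sub, hn.1, mul_one, sub_zero]
  rw [pow_three]
  nth_rewrite 1 [h1]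
  rw [mul_assoc, ← mul_assoc (1 - e), upS_left hn, mul_assoc _ f, hn.2.1, mul_zero, mul_zero]

theorem upS_mul_left (he : z * e = e * z) (hf : z * f = f * z) (hn : n ∈ upS F e f) :
    z * n ∈ upS F e f := by
  have h1 : (1 - e) * z = z * (1 - e) := by rw [sub_mul, mul_sub, he, mul_one, one_mul]
  refine ⟨by rw [mul_assoc, hn.1, mul_zero], by rw [← mul_assoc, ← hf, mul_assoc, hn.2.1, mul_zero],
    ?_⟩
  rw [← mul_assoc, h1, mul_assoc z, mul_assoc z, hn.2.2, mul_zero]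

theorem upS_mul_right (he : z * e = e * z) (hf : z * f = f * z) (hn : n ∈ upS F e f) :
    n * z ∈ upS F e f := by
  have h1 : z * (1 - f) = (1 - f) * z := by rw [sub_mul, mul_sub, hf, mul_one, one_mul]
  refine ⟨by rw [mul_assoc, he, ← mul_assoc, hn.1, zero_mul],
    by rw [← mul_assoc, hn.2.1, zero_mul], ?_⟩
  rw [← mul_assoc, mul_assoc _ z, h1, ← mul_assoc, hn.2.2, zero_mul]

variable [CharZero F] {s : Submodule F R}

/-- The triangular decomposition. -/
theorem exists_decomp (hs : ∀ Y ∈ s, ∀ Z ∈ s, Y * Z - Z * Y ∈ s) (hee : e * e = e)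
    (hff : f * f = f) (hef : e * f = 0) (hfe : f * e = 0) (hh : e - f ∈ s) {Z : R} (hZ : Z ∈ s) :
    ∃ n ∈ s ⊓ upS F e f, ∃ m ∈ s ⊓ upS F f e, ∃ z ∈ s, z * e = e * z ∧ z * f = f * z ∧
      Z = n + z + m := by
  obtain ⟨p, hp⟩ : ∃ p, p = 1 - e - f := ⟨_, rfl⟩
  have hep : e * p = 0 := by rw [hp, mul_sub, mul_sub, hee, hef, mul_one, sub_self, sub_zero]
  have hpe : p * e = 0 := by rw [hp, sub_mul, sub_mul, hee, hfe, one_mul, sub_self, sub_zero]
  have hfp : f * p = 0 := by rw [hp, mul_sub, mul_sub, hff, hfe, mul_one, sub_zero, sub_self]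
  have hpf : p * f = 0 := by rw [hp, sub_mul, sub_mul, hff, hef, one_mul, sub_zero, sub_self]
  have l : ∀ {a b c : R}, a * b = c → ∀ x, a * (b * x) = c * x := fun h x => by
    rw [← mul_assoc, h]
  have h1e : 1 - e = p + f := by rw [hp, sub_add_cancel]
  have h1f : 1 - f = p + e := by rw [hp, sub_right_comm, sub_add_cancel]
  have h1 : Z = (e + p + f) * Z * (e + p + f) := by
    rw [show e + p + f = 1 by rw [hp]; abel, one_mul, mul_one]
  have key := E2.mem_of_eig s (LinearMap.mul F R (e - f) - (LinearMap.mul F R).flip (e - f))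
    (fun y hy => hs _ hh y hy) (![2, 1, 0, -1, -2] : Fin 5 → F)
    (by
      intro i j
      fin_cases i <;> fin_cases j <;> norm_num)
    Finset.univ
    ![e * Z * f, e * Z * p + p * Z * f, e * Z * e + p * Z * p + f * Z * f, p * Z * e + f * Z * p,
      f * Z * e]
    (fun i => by
      fin_cases i <;>
        simp [mul_add, mul_assoc, hee, hff, hef, hfe, hpe, hpf, l hee,
          l hff, l hef, l hfe, l hep, l hfp, two_smul] <;> abel)
    (by
      rw [Fin.sum_univ_five]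
      convert hZ using 1
      conv_rhs => rw [h1]
      simp only [mul_add, add_mul, Matrix.cons_val]
      abel)
  refine ⟨e * Z * f + (e * Z * p + p * Z * f),
    ⟨add_mem (key 0 (Finset.mem_univ _)) (key 1 (Finset.mem_univ _)), ?_⟩,
    p * Z * e + f * Z * p + f * Z * e,
    ⟨add_mem (key 3 (Finset.mem_univ _)) (key 4 (Finset.mem_univ _)), ?_⟩,
    _, key 2 (Finset.mem_univ _), ?_, ?_, ?_⟩
  · refine mem_upS.2 ?_
    rw [h1e, h1f]
    simp [mul_add, add_mul, mul_assoc, hfe, hpe, hfp, l hfe, l hpe, l hfp]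
  · refine mem_upS.2 ?_
    rw [h1e, h1f]
    simp [mul_add, add_mul, mul_assoc, hef, hpf, hep, l hef, l hpf, l hep]
  · simp [mul_add, add_mul, mul_assoc, hee, hfe, hpe, l hee, l hef, l hep]
  · simp [mul_add, add_mul, mul_assoc, hff, hef, hpf, l hff, l hfe, l hfp]
  · conv_lhs => rw [h1]
    simp only [mul_add, add_mul, Matrix.cons_val]
    abel

/-- The two triangular parts generate a simple Lie algebra. -/
theorem le_of_upS (hs : ∀ Y ∈ s, ∀ Z ∈ s, Y * Z - Z * Y ∈ s)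
    (hsim : ∀ U : Submodule F R, U ≤ s → U ≠ ⊥ → (∀ Y ∈ s, ∀ Z ∈ U, Y * Z - Z * Y ∈ U) → s ≤ U)
    (hee : e * e = e) (hff : f * f = f) (hef : e * f = 0) (hfe : f * e = 0) (hh : e - f ∈ s)
    (h0 : s ⊓ upS F e f ≠ ⊥) {L : Submodule F R} (hL : ∀ Y ∈ L, ∀ Z ∈ L, Y * Z - Z * Y ∈ L)
    (h1 : s ⊓ upS F e f ≤ L) (h2 : s ⊓ upS F f e ≤ L) : s ≤ L := by
  let I : Submodule F R := Submodule.span F {w | w ∈ s ⊓ upS F e f ∨ w ∈ s ⊓ upS F f e ∨
    ∃ a ∈ s ⊓ upS F e f, ∃ b ∈ s ⊓ upS F f e, w = a * b - b * a}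
  have i1 : ∀ w ∈ s ⊓ upS F e f, w ∈ I := fun w hw => Submodule.subset_span (Or.inl hw)
  have i2 : ∀ w ∈ s ⊓ upS F f e, w ∈ I := fun w hw => Submodule.subset_span (Or.inr (Or.inl hw))
  have i3 : ∀ a ∈ s ⊓ upS F e f, ∀ b ∈ s ⊓ upS F f e, a * b - b * a ∈ I := fun a ha b hb =>
    Submodule.subset_span (Or.inr (Or.inr ⟨a, ha, b, hb, rfl⟩))
  have k1 : ∀ Y ∈ s, ∀ a ∈ s ⊓ upS F e f, Y * a - a * Y ∈ I := fun Y hY a ha => by
    obtain ⟨n, hn, m, hm, z, hz, k1, k2, rfl⟩ := exists_decomp hs hee hff hef hfe hh hY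
    have : (n + z + m) * a - a * (n + z + m) =
        (n * a - a * n) + (z * a - a * z) - (a * m - m * a) := by noncomm_ring
    rw [this]
    exact sub_mem (add_mem (i1 _ ⟨hs _ hn.1 _ ha.1, sub_mem (upS_mul hn.2 ha.2) (upS_mul ha.2 hn.2)⟩)
      (i1 _ ⟨hs _ hz _ ha.1, sub_mem (upS_mul_left k1 k2 ha.2) (upS_mul_right k1 k2 ha.2)⟩))
      (i3 _ ha _ hm)
  have k2 : ∀ Y ∈ s, ∀ b ∈ s ⊓ upS F f e, Y * b - b * Y ∈ I := fun Y hY b hb => by
    obtain ⟨n, hn, m, hm, z, hz, k1, k2, rfl⟩ := exists_decomp hs hee hff hef hfe hh hY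
    have : (n + z + m) * b - b * (n + z + m) =
        (n * b - b * n) + (z * b - b * z) + (m * b - b * m) := by noncomm_ring
    rw [this]
    exact add_mem (add_mem (i3 _ hn _ hb)
      (i2 _ ⟨hs _ hz _ hb.1, sub_mem (upS_mul_left k2 k1 hb.2) (upS_mul_right k2 k1 hb.2)⟩))
      (i2 _ ⟨hs _ hm.1 _ hb.1, sub_mem (upS_mul hm.2 hb.2) (upS_mul hb.2 hm.2)⟩)
  refine (hsim I (Submodule.span_le.2 ?_) (fun h => h0 (le_bot_iff.1 (h ▸ i1))) ?_).trans
    (Submodule.span_le.2 ?_)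
  · rintro w (hw | hw | ⟨a, ha, b, hb, rfl⟩)
    exacts [hw.1, hw.1, hs _ ha.1 _ hb.1]
  · intro Y hY Z hZ
    induction hZ using Submodule.span_induction with
    | mem w hw =>
      rcases hw with hw | hw | ⟨a, ha, b, hb, rfl⟩
      · exact k1 Y hY w hw
      · exact k2 Y hY w hw
      · have : Y * (a * b - b * a) - (a * b - b * a) * Y =
            ((Y * a - a * Y) * b - b * (Y * a - a * Y)) -
              ((Y * b - b * Y) * a - a * (Y * b - b * Y)) := by noncomm_ring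
        rw [this]
        exact sub_mem (k2 _ (hs _ hY _ ha.1) _ hb) (k1 _ (hs _ hY _ hb.1) _ ha)
    | zero => simp
    | add x y _ _ hx hy =>
      have : Y * (x + y) - (x + y) * Y = (Y * x - x * Y) + (Y * y - y * Y) := by noncomm_ring
      rw [this]
      exact add_mem hx hy
    | smul t x _ hx =>
      rw [mul_smul_comm, smul_mul_assoc, ← smul_sub]
      exact I.smul_mem t hx
  · rintro w (hw | hw | ⟨a, ha, b, hb, rfl⟩)
    exacts [h1 hw, h2 hw, hL _ (h1 ha) _ (h2 hb)]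

/-- The linear term of a polynomial identity. -/
theorem lin_term {M M' : Type} [AddCommGroup M] [Module F M] [AddCommGroup M'] [Module F M']
    (β : M →ₗ[F] M' →ₗ[F] F) (a₀ a₁ a₂ a₃ a₄ : M) (b₀ b₁ b₂ b₃ b₄ : M')
    (h : ∀ t : ℤ, β (a₀ + (t : F) • a₁ + (t : F) ^ 2 • a₂ + (t : F) ^ 3 • a₃ + (t : F) ^ 4 • a₄)
      (b₀ + (t : F) • b₁ + (t : F) ^ 2 • b₂ + (t : F) ^ 3 • b₃ + (t : F) ^ 4 • b₄) = 0) :
    β a₁ b₀ + β a₀ b₁ = 0 := by
  simp only [map_add, map_smul, LinearMap.add_apply, LinearMap.smul_apply, smul_eq_mul] at h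
  have h1 := h 1
  have h2 := h 2
  have h3 := h 3
  have h4 := h 4
  have k1 := h (-1)
  have k2 := h (-2)
  have k3 := h (-3)
  have k4 := h (-4)
  push_cast at h1 h2 h3 h4 k1 k2 k3 k4
  linear_combination (4 / 5 : F) * (h1 - k1) - (1 / 5 : F) * (h2 - k2) +
    (4 / 105 : F) * (h3 - k3) - (1 / 280 : F) * (h4 - k4)

end Vale.Agent.P011N.Cl
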