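import Vale.Agent.P011N.Cl.JT.Un
import Vale.Agent.P011N.Cl.JT.Grade

/-!
Jordan tools: opposite extremal elements.
-/

namespace Vale.Agent.P011N.Cl

open Vale.Agent.P011.MPQ Vale.Agent.P011.D4 Vale.Agent.P011.D4.Oct Vale.Agent.P011.E6 Equiv Module

section cj

variable {F V W : Type} [Field F] [CharZero F] [AddCommGroup V] [Module F V] [AddCommGroup W]
  [Module F W] {γ : Gl F} {φ : V ≃ W}

/-- The conjugation of an endomorphism by a semilinear bijection. -/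
def cj (h : Semi γ φ) (Y : End F V) : End F W :=
  Semi.lin (f := φ ∘ Y ∘ φ.symm) (by
    have := h.comp ((semi_lin Y).lin_comp h.symm)
    rwa [mul_inv_cancel] at this)

theorem cj_apply (h : Semi γ φ) (Y : End F V) (v : V) : cj h Y (φ v) = φ (Y v) :=
  congrArg (φ ∘ Y) (φ.symm_apply_apply v)

theorem cj_eq (h : Semi γ φ) {Y : End F V} {Z : End F W} (hZ : ∀ v, φ (Y v) = Z (φ v)) :
    cj h Y = Z := LinearMap.ext fun v => by
  obtain ⟨v, rfl⟩ := φ.surjective v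
  rw [cj_apply, hZ]

theorem cj_semi (h : Semi γ φ) : Semi γ (cj h) := fun t Y Z => cj_eq h fun v => by
  simp only [LinearMap.add_apply, LinearMap.smul_apply, cj_apply]
  exact h _ _ _

theorem cj_mul (h : Semi γ φ) (Y Z : End F V) : cj h (Y * Z) = cj h Y * cj h Z :=
  cj_eq h fun v => by simp only [End.mul_apply, cj_apply]

theorem cj_one (h : Semi γ φ) : cj h 1 = 1 := cj_eq h fun _ => rfl

theorem cj_ne (h : Semi γ φ) {Y : End F V} (hY : Y ≠ 0) : cj h Y ≠ 0 := fun h0 =>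
  hY (LinearMap.ext fun v => φ.injective (by
    rw [← cj_apply h, h0, LinearMap.zero_apply, LinearMap.zero_apply, h.zero]))

theorem cj_upS (h : Semi γ φ) {e f n : End F V} (hn : n ∈ upS F e f) :
    cj h n ∈ upS F (cj h e) (cj h f) := by
  refine ⟨by rw [← cj_mul, hn.1, (cj_semi h).zero], by rw [← cj_mul, hn.2.1, (cj_semi h).zero], ?_⟩
  rw [← cj_one h, ← (cj_semi h).sub, ← (cj_semi h).sub, ← cj_mul, ← cj_mul, hn.2.2,
    (cj_semi h).zero]

theorem trace_cj (h : Semi (⇑(1 : Gl F)) φ) (Y : End F V) [FiniteDimensional F V] :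
    LinearMap.trace F W (cj h Y) = LinearMap.trace F V Y := by
  rw [← LinearMap.trace_conj' Y ({ (semi_one.1 h).lin, φ with } : V ≃ₗ[F] W)]
  rfl

/-- The trace form. -/
noncomputable def trB (F V : Type) [Field F] [AddCommGroup V] [Module F V] :
    End F V →ₗ[F] End F V →ₗ[F] F := (LinearMap.mul F (End F V)).compr₂ (LinearMap.trace F V)

omit [CharZero F] in
theorem trB_apply (Y Z : End F V) : trB F V Y Z = LinearMap.trace F V (Y * Z) := rfl

omit [CharZero F] in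
theorem trB_brk [FiniteDimensional F V] (Y Z n : End F V) :
    trB F V Y (n * Z - Z * n) = trB F V (Y * n - n * Y) Z := by
  rw [trB_apply, trB_apply, mul_sub, sub_mul, map_sub, map_sub, ← mul_assoc, ← mul_assoc,
    LinearMap.trace_mul_comm F (Y * Z) n, mul_assoc n]

end cj

section p1

variable {F : Type} [Field F] [CharZero F] {A B C A' B' C' : Fˣ} {Γ : Subgroup (Gl F)}
  {Φ : Subgroup (Perm (V6 A B C))} {γ : Gl F}

theorem Sim6.cj_mem {ε : Bool} {ν₁ ν₂ l : F} {φ : V6 A B C ≃ V6 A' B' C'}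
    (h : Sim6 γ ε ν₁ ν₂ l φ) {Y : End F (V6 A B C)} (hY : Y ∈ s6 A B C) :
    cj h.semi Y ∈ s6 A' B' C' := by
  obtain ⟨Z, h1, h2⟩ := h.conj_s6 hY
  rwa [cj_eq h.semi h2]

/-- The orbit under the rational points. -/
def OrbP (Φ : Subgroup (Perm (V6 A B C))) (X X' : End F (V6 A B C)) : Prop :=
  ∃ g ∈ Pts (S6 A B C) Φ, ∀ v, g (X v) = X' (g v)

theorem OrbP.exp (hΦ : Over Γ Φ) {X X' n : End F (V6 A B C)} (h : OrbP Φ X X')
    (hn : n ∈ s6 A B C) (h3 : n ^ 3 = 0) (hc : ∀ φ ∈ Φ, ∀ v, φ (n v) = n (φ v)) :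
    OrbP Φ X ((1 + n + (2 : F)⁻¹ • (n * n)) * X' * (1 - n + (2 : F)⁻¹ • (n * n))) := by
  obtain ⟨g, h1, h2⟩ := h
  refine ⟨_, mul_mem (exp3_mem_Pts hΦ hn h3 hc) h1, fun v => ?_⟩
  rw [Perm.mul_apply, Perm.mul_apply, h2]
  exact congrArg (fun w => exp3 n h3 (X' w)) ((exp3 n h3).symm_apply_apply (g v)).symm

theorem p1_step (hΦ : Over Γ Φ) {X : End F (V6 A B C)} {φ : Perm (V6 A B C)} (hφ : Semi γ φ)
    {β : End F (V6 A B C) →ₗ[F] End F (V6 A B C) →ₗ[F] F}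
    (hβ : ∀ X', OrbP Φ X X' → β X' (cj hφ X') = 0) {n : End F (V6 A B C)} (hn : n ∈ s6 A B C)
    (h3 : n ^ 3 = 0) (hc : ∀ φ ∈ Φ, ∀ v, φ (n v) = n (φ v)) {X' : End F (V6 A B C)}
    (h : OrbP Φ X X') :
    β (n * X' - X' * n) (cj hφ X') + β X' (cj hφ (n * X' - X' * n)) = 0 := by
  refine lin_term β X' _ ((2 : F)⁻¹ • (n * n * X') - n * X' * n + (2 : F)⁻¹ • (X' * (n * n)))
    ((2 : F)⁻¹ • (n * X' * (n * n)) - (2 : F)⁻¹ • (n * n * X' * n))
    ((4 : F)⁻¹ • (n * n * X' * (n * n))) _ _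
    (cj hφ ((2 : F)⁻¹ • (n * n * X') - n * X' * n + (2 : F)⁻¹ • (X' * (n * n))))
    (cj hφ ((2 : F)⁻¹ • (n * X' * (n * n)) - (2 : F)⁻¹ • (n * n * X' * n)))
    (cj hφ ((4 : F)⁻¹ • (n * n * X' * (n * n)))) fun t => ?_
  have k := hβ _ (h.exp hΦ ((s6 A B C).smul_mem (t : F) hn) (by rw [smul_pow, h3, smul_zero])
    fun ψ hψ v => by
      obtain ⟨δ, -, hs⟩ := hΦ.semi ψ hψ
      rw [LinearMap.smul_apply, LinearMap.smul_apply, hs.smul, hc ψ hψ, map_intCast])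
  have e : (1 + (t : F) • n + (2 : F)⁻¹ • ((t : F) • n * (t : F) • n)) * X' *
      (1 - (t : F) • n + (2 : F)⁻¹ • ((t : F) • n * (t : F) • n)) =
      X' + (t : F) • (n * X' - X' * n) +
        (t : F) ^ 2 • ((2 : F)⁻¹ • (n * n * X') - n * X' * n + (2 : F)⁻¹ • (X' * (n * n))) +
        (t : F) ^ 3 • ((2 : F)⁻¹ • (n * X' * (n * n)) - (2 : F)⁻¹ • (n * n * X' * n)) +
        (t : F) ^ 4 • ((4 : F)⁻¹ • (n * n * X' * (n * n))) := by
    simp only [mul_add, add_mul, mul_sub, smul_mul_assoc, mul_smul_comm, mul_one, one_mul]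
    match_scalars <;> ring
  rw [e] at k
  simpa only [(cj_semi hφ).add, (cj_semi hφ).smul ((t : F) ^ _), (cj_semi hφ).smul (t : F),
    map_pow, map_intCast] using k

end p1

/-- (P1) -/
theorem p1Stmt : P1Stmt := by
  intro F _ _ a b c Γ Φ d hΦ hd hdf X Y hX hY h0 hXX hYY hXYX hYXY hext hh φ γ ε ν₁ ν₂ l hφ hγ
  rw [inS6_iff] at hX hY
  by_contra hcon
  have lm : ∀ {p q r : End F (V6 a b c)}, p * q = r → ∀ x, p * (q * x) = r * x := fun h x => by
    rw [← mul_assoc, h]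
  have hee : X * Y * (X * Y) = X * Y := by rw [← mul_assoc, hXYX]
  have hff : Y * X * (Y * X) = Y * X := by rw [← mul_assoc, hYXY]
  have hef : X * Y * (Y * X) = 0 := by rw [mul_assoc, lm hYY, zero_mul, mul_zero]
  have hfe : Y * X * (X * Y) = 0 := by rw [mul_assoc, lm hXX, zero_mul, mul_zero]
  have H : ∀ X', OrbP Φ X X' → trB F _ X' (cj hφ.semi X') = 0 := by
    rintro X' ⟨g, hg, h1⟩
    have hs := sim6_one.2 (mem_S6.1 hg.1)
    obtain ⟨Z, hZ, h2⟩ := hs.symm.conj_s6 (hφ.cj_mem (hs.cj_mem hX))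
    obtain ⟨t, ht⟩ := hext Z (inS6_iff.2 hZ)
    have h3 : cj hs.semi X = X' := cj_eq _ h1
    have h4 : cj hs.semi Z = cj hφ.semi X' := cj_eq _ fun v => by
      have := h2 (g v)
      rwa [symm_apply_apply, h3, symm_apply_eq, eq_comm] at this
    have h5 : t = 0 := by
      by_contra h5
      refine hcon ⟨g, hg, t, h5, fun v => ?_⟩
      have h6 : ∀ w, (g⁻¹ * φ * g) (X w) = Z ((g⁻¹ * φ * g) w) := fun w => by
        simp only [Perm.mul_apply]
        rw [Perm.inv_eq_iff_eq, ← cj_apply hs.semi Z, h4, h1, ← cj_apply hφ.semi X']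
        simp
      rw [h6, ← Perm.mul_apply _ (g⁻¹ * φ * g)⁻¹, mul_inv_cancel]
      exact LinearMap.congr_fun ht v
    rw [← h4, ← h3, trB_apply, ← cj_mul, trace_cj, ← hXYX, mul_assoc, mul_assoc,
      LinearMap.trace_mul_comm, mul_assoc, mul_assoc, ← mul_assoc X, ht, h5, zero_smul, mul_zero,
      map_zero]
  let L : Submodule F (End F (V6 a b c)) :=
    { carrier := {n | ∀ β : End F (V6 a b c) →ₗ[F] End F (V6 a b c) →ₗ[F] F,
        (∀ X', OrbP Φ X X' → β X' (cj hφ.semi X') = 0) →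
        ∀ X', OrbP Φ X X' → β (n * X' - X' * n) (cj hφ.semi X') = 0}
      zero_mem' := fun β _ X' _ => by simp
      add_mem' := fun {n m} hn hm β hβ X' h => by
        rw [add_mul, mul_add, add_sub_add_comm, map_add, LinearMap.add_apply, hn β hβ X' h,
          hm β hβ X' h, add_zero]
      smul_mem' := fun t n hn β hβ X' h => by
        rw [smul_mul_assoc, mul_smul_comm, ← smul_sub, map_smul, LinearMap.smul_apply,
          hn β hβ X' h, smul_zero] }
  let ad : End F (V6 a b c) → End F (End F (V6 a b c)) := fun n =>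
    LinearMap.mul F _ n - (LinearMap.mul F _).flip n
  have had : ∀ n Z, ad n Z = n * Z - Z * n := fun _ _ => rfl
  have hL : ∀ n ∈ L, ∀ m ∈ L, n * m - m * n ∈ L := fun n hn m hm β hβ X' h => by
    have k1 := hm (β ∘ₗ ad n) (hn β hβ) X' h
    have k2 := hn (β ∘ₗ ad m) (hm β hβ) X' h
    have e : (n * m - m * n) * X' - X' * (n * m - m * n) =
        ad n (m * X' - X' * m) - ad m (n * X' - X' * n) := by
      simp only [had, mul_sub, sub_mul, mul_assoc]
      abel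
    rw [e, map_sub, LinearMap.sub_apply]
    exact sub_eq_zero.2 (k1.trans k2.symm)
  have hN : ∀ e f : End F (V6 a b c), (∀ ψ ∈ Φ, ∀ v, ψ (e v) = e (ψ v)) →
      (∀ ψ ∈ Φ, ∀ v, ψ (f v) = f (ψ v)) → s6 a b c ⊓ upS F e f ≤ L := fun e f he hf => by
    refine (conj_span hΦ.ov (s6 a b c ⊓ upS F e f) (fun ψ hψ n hn => ?_)
      fun ψ hψ hs n hn => comm_Z6_s6 (hΦ.lin ψ hψ hs) hn.1).trans (Submodule.span_le.2 ?_)
    · obtain ⟨δ, -, ε', ν₁', ν₂', l', hs⟩ := hΦ.sim ψ hψ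
      refine ⟨cj hs.semi n, ⟨hs.cj_mem hn.1, ?_⟩, fun v => (cj_apply _ _ _).symm⟩
      have := cj_upS hs.semi hn.2
      rwa [cj_eq _ (he ψ hψ), cj_eq _ (hf ψ hψ)] at this
    · rintro n ⟨hn, hc⟩ β hβ X' h
      have k1 := p1_step hΦ.ov hφ.semi hβ hn.1 (upS_cube hn.2) hc h
      have k2 := p1_step hΦ.ov hφ.semi hβ ((s6 a b c).smul_mem d hn.1)
        (upS_cube ((upS F e f).smul_mem d hn.2)) (fun ψ hψ v => by
          obtain ⟨δ, hδ, hs⟩ := hΦ.ov.semi ψ hψ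
          rw [LinearMap.smul_apply, LinearMap.smul_apply, hs.smul, hc ψ hψ, hdf δ hδ]) h
      rw [smul_mul_assoc, mul_smul_comm, ← smul_sub, (cj_semi _).smul, hγ, map_smul, map_smul,
        LinearMap.smul_apply, smul_eq_mul, smul_eq_mul] at k2
      refine mul_left_cancel₀ (mul_ne_zero two_ne_zero hd) ?_
      linear_combination d * k1 + k2
  have hsq : (X * Y - Y * X) * (X * Y - Y * X) = X * Y + Y * X := by
    rw [mul_sub, sub_mul, sub_mul, hee, hff, hef, hfe]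
    abel
  have hc : ∀ s : ℤ, ∀ ψ ∈ Φ, ∀ v, ψ (((2 : F)⁻¹ • ((X * Y - Y * X) * (X * Y - Y * X) +
      (s : F) • (X * Y - Y * X))) v) = ((2 : F)⁻¹ • ((X * Y - Y * X) * (X * Y - Y * X) +
      (s : F) • (X * Y - Y * X))) (ψ v) := fun s ψ hψ v => by
    obtain ⟨δ, -, hs⟩ := hΦ.ov.semi ψ hψ
    simp only [LinearMap.smul_apply, LinearMap.add_apply, End.mul_apply (X * Y - Y * X), hs.smul,
      hs.add, hh ψ hψ, map_inv₀, map_ofNat, map_intCast]
  have he := hc 1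
  have hf := hc (-1)
  rw [hsq] at he hf
  rw [show (2 : F)⁻¹ • (X * Y + Y * X + ((1 : ℤ) : F) • (X * Y - Y * X)) = X * Y by
    match_scalars <;> norm_num] at he
  rw [show (2 : F)⁻¹ • (X * Y + Y * X + ((-1 : ℤ) : F) • (X * Y - Y * X)) = Y * X by
    match_scalars <;> norm_num] at hf
  have hsL : s6 a b c ≤ L := le_of_upS (fun _ h _ h' => s6_brk h h') s6_simple hee hff hef hfe
    (s6_brk hX hY) (fun h => h0 ((Submodule.eq_bot_iff _).1 h X ⟨hX, by
      rw [← mul_assoc, hXX, zero_mul], by rw [mul_assoc, hXX, mul_zero], by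
      rw [sub_mul, hXYX, one_mul, sub_self, zero_mul]⟩)) hL (hN _ _ he hf) (hN _ _ hf he)
  have hO : OrbP Φ X X := ⟨1, one_mem _, fun _ => rfl⟩
  let K : Submodule F (End F (V6 a b c)) :=
    { carrier := {Z | ∀ M : End F (End F (V6 a b c)),
        (∀ β : End F (V6 a b c) →ₗ[F] End F (V6 a b c) →ₗ[F] F,
          (∀ X', OrbP Φ X X' → β X' (cj hφ.semi X') = 0) →
          ∀ X', OrbP Φ X X' → β (M X') (cj hφ.semi X') = 0) → trB F _ (M Z) (cj hφ.semi X) = 0}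
      zero_mem' := fun M _ => by simp
      add_mem' := fun {n m} hn hm M hM => by
        rw [map_add, map_add, LinearMap.add_apply, hn M hM, hm M hM, add_zero]
      smul_mem' := fun t n hn M hM => by
        rw [map_smul, map_smul, LinearMap.smul_apply, hn M hM, smul_zero] }
  have hK : s6 a b c ≤ s6 a b c ⊓ K := s6_simple _ inf_le_left
    (fun h => h0 ((Submodule.eq_bot_iff _).1 h X ⟨hX, fun M hM => hM _ H X hO⟩))
    fun n hn Z hZ => ⟨s6_brk hn hZ.1, fun M hM => hZ.2 (M * ad n) fun β hβ =>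
      hsL hn (β ∘ₗ M) (hM β hβ)⟩
  have hR : s6 a b c ≤ s6 a b c ⊓ ⨅ Z : s6 a b c, LinearMap.ker (trB F _ Z.1) :=
    s6_simple _ inf_le_left
      (fun h => cj_ne hφ.semi h0 ((Submodule.eq_bot_iff _).1 h _ ⟨hφ.cj_mem hX,
        (Submodule.mem_iInf _).2 fun Z => (hK Z.2).2 1 fun _ hβ => hβ⟩))
      fun n hn Z hZ => ⟨s6_brk hn hZ.1, (Submodule.mem_iInf _).2 fun W => by
        rw [LinearMap.mem_ker, trB_brk]
        exact (Submodule.mem_iInf _).1 hZ.2 ⟨_, s6_brk W.2 hn⟩⟩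
  have h1 : X * Y = 0 := LinearMap.IsIdempotentElem.eq_zero_of_trace_eq_zero hee
    ((Submodule.mem_iInf _).1 (hR hY).2 ⟨X, hX⟩)
  exact h0 (by rw [← hXYX, h1, zero_mul])

end Vale.Agent.P011N.Cl
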