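import Vale.Agent.P011N.Cl.JT.Vop

/-!
Jordan tools: descent for the conjugation action, and the unipotent elements of the inner forms
with a stable line of rank one.
-/

namespace Vale.Agent.P011N.Cl

open Vale.Agent.P011.MPQ Vale.Agent.P011.D4 Vale.Agent.P011.D4.Oct Vale.Agent.P011.E6 Equiv Module
open Vale.Agent.P011.E6.Alb Vale.Agent.P011.H327.Star

section conj

variable {F V : Type} [Field F] [NumberField F] [AddCommGroup V] [Module F V]
  {Γ : Subgroup (Gl F)} {Φ : Subgroup (Perm V)}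

/-- **Galois descent** for the conjugation action. -/
theorem conj_span (hΦ : Over Γ Φ) (W : Submodule F (End F V))
    (hW : ∀ φ ∈ Φ, ∀ Y ∈ W, ∃ Z ∈ W, ∀ v, φ (Y v) = Z (φ v))
    (hc : ∀ φ ∈ Φ, Semi (id : F → F) φ → ∀ Y ∈ W, ∀ v, φ (Y v) = Y (φ v)) :
    W ≤ Submodule.span F {Y | Y ∈ W ∧ ∀ φ ∈ Φ, ∀ v, φ (Y v) = Y (φ v)} := by
  classical
  choose! p hp hp' using hΦ.onto
  have k : ∀ (γ : Gl F) (Y : W), ∃ Z : W, (γ = 1 → Z = Y) ∧
      (γ ∈ Γ → ∀ φ ∈ Φ, Semi γ φ → ∀ v, φ (Y.1 v) = Z.1 (φ v)) := fun γ Y => by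
    by_cases h1 : γ = 1
    · subst h1
      exact ⟨Y, fun _ => rfl, fun _ φ hφ hs => hc φ hφ hs Y.1 Y.2⟩
    by_cases h2 : γ ∈ Γ
    · obtain ⟨Z, k1, k2⟩ := hW _ (hp γ h2) Y.1 Y.2
      refine ⟨⟨Z, k1⟩, fun h => absurd h h1, fun _ φ hφ hs v => ?_⟩
      have k3 : Semi (id : F → F) ⇑((p γ)⁻¹ * φ) := by
        have := (hp' γ h2).inv.mul hs
        rwa [inv_mul_cancel] at this
      have k4 := hc _ (Φ.mul_mem (Φ.inv_mem (hp γ h2)) hφ) k3 Y.1 Y.2 v
      rw [Perm.mul_apply, Perm.inv_eq_iff_eq, k2, Perm.mul_apply] at k4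
      simpa using k4
    · exact ⟨Y, fun _ => rfl, fun h => absurd h h2⟩
  choose b hb1 hb using k
  have ext : ∀ γ ∈ Γ, ∀ Z Z' : W, (∀ v, Z.1 (p γ v) = Z'.1 (p γ v)) → Z = Z' :=
    fun γ _ Z Z' h => Subtype.ext (LinearMap.ext fun v => by
      obtain ⟨v, rfl⟩ := (p γ).surjective v
      exact h v)
  have h1 := span_fixed (Γ := Γ) b
    (fun γ hγ t Y Y' => ext γ hγ _ _ fun v => by
      simp only [Submodule.coe_add, Submodule.coe_smul, LinearMap.add_apply, LinearMap.smul_apply,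
        ← hb γ _ hγ _ (hp γ hγ) (hp' γ hγ)]
      exact hp' γ hγ _ _ _)
    (fun γ hγ δ hδ Y => Subtype.ext (LinearMap.ext fun v => by
      obtain ⟨v, rfl⟩ := (p γ * p δ).surjective v
      rw [← hb _ _ (Γ.mul_mem hγ hδ) _ (Φ.mul_mem (hp γ hγ) (hp δ hδ))
        ((hp' γ hγ).mul (hp' δ hδ)), Perm.mul_apply, Perm.mul_apply,
        ← hb γ _ hγ _ (hp γ hγ) (hp' γ hγ), ← hb δ _ hδ _ (hp δ hδ) (hp' δ hδ)]))
    (fun Y => hb1 1 Y rfl)
  intro x hx
  have h2 := Submodule.mem_map_of_mem (f := W.subtype) (h1.ge (Submodule.mem_top (x := ⟨x, hx⟩)))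
  rw [Submodule.map_span] at h2
  refine Submodule.span_mono ?_ h2
  rintro _ ⟨y, hy, rfl⟩
  refine ⟨y.2, fun φ hφ v => ?_⟩
  obtain ⟨γ, hγ, hs⟩ := hΦ.semi φ hφ
  have := hb γ y hγ φ hφ hs v
  rwa [hy γ hγ] at this

theorem conj_exists (hΦ : Over Γ Φ) (W : Submodule F (End F V))
    (hW : ∀ φ ∈ Φ, ∀ Y ∈ W, ∃ Z ∈ W, ∀ v, φ (Y v) = Z (φ v))
    (hc : ∀ φ ∈ Φ, Semi (id : F → F) φ → ∀ Y ∈ W, ∀ v, φ (Y v) = Y (φ v)) (h0 : W ≠ ⊥) :
    ∃ Y ∈ W, Y ≠ 0 ∧ ∀ φ ∈ Φ, ∀ v, φ (Y v) = Y (φ v) := by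
  by_contra hcon
  refine h0 (le_bot_iff.1 ((conj_span hΦ W hW hc).trans (Submodule.span_le.2 fun Y hY => ?_)))
  by_contra h1
  exact hcon ⟨Y, hY.1, h1, hY.2⟩

end conj

section un

variable {F : Type} [Field F] [CharZero F] {A B C : Fˣ} {Γ : Subgroup (Gl F)}
  {Φ : Subgroup (Perm (V6 A B C))}

/-- The exponential of a nilpotent element which commutes with the group is a rational point. -/
theorem exp3_mem_Pts (hΦ : Over Γ Φ) {Y : End F (V6 A B C)} (hY : Y ∈ s6 A B C) (h3 : Y ^ 3 = 0)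
    (hc : ∀ φ ∈ Φ, ∀ v, φ (Y v) = Y (φ v)) :
    ((exp3 Y h3).toEquiv : Perm (V6 A B C)) ∈ Pts (S6 A B C) Φ := by
  refine mem_Pts.2 ⟨exp3_mem hY h3, fun φ hφ => Equiv.ext fun v => ?_⟩
  obtain ⟨γ, -, hs⟩ := hΦ.semi φ hφ
  simp only [Perm.mul_apply, LinearEquiv.coe_toEquiv, exp3_apply, hs.add, hs.smul, hc φ hφ,
    map_inv₀, map_ofNat]

/-- A nonzero nilpotent element which commutes with the group makes the group isotropic. -/
theorem not_ani_of_nilp (hΦ : Over Γ Φ) {Y : End F (V6 A B C)} (hY : Y ∈ s6 A B C)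
    (h3 : Y ^ 3 = 0) (h0 : Y ≠ 0) (hc : ∀ φ ∈ Φ, ∀ v, φ (Y v) = Y (φ v)) :
    ¬ Ani (Pts (S6 A B C) Φ) := fun h => by
  have k3 : ∀ v, Y (Y (Y v)) = 0 := fun v => by
    simpa [pow_succ] using LinearMap.congr_fun h3 v
  have k : ∀ v, (exp3 Y h3).toEquiv v - v = Y v + (2 : F)⁻¹ • Y (Y v) := fun v => by
    rw [LinearEquiv.coe_toEquiv, exp3_apply, add_assoc, add_sub_cancel_left]
  have h1 := h _ (exp3_mem_Pts hΦ hY h3 hc) ⟨3, fun v => by
    simp only [Function.iterate_succ, Function.iterate_zero, Function.comp_apply, id, k, map_add,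
      map_smul, k3, map_zero, smul_zero, add_zero]⟩
  have h2 : ∀ v, Y v + (2 : F)⁻¹ • Y (Y v) = 0 := fun v => by
    rw [← k, h1, Perm.one_apply, sub_self]
  refine h0 (LinearMap.ext fun v => ?_)
  have h4 := h2 (Y v)
  have h5 := h2 v
  rw [k3, smul_zero, add_zero] at h4
  rwa [h4, smul_zero, add_zero] at h5

theorem cub_cross_of_adj {x : Alb A B C} (h : adj x = 0) (w : Alb A B C) :
    cub (cross x w) = 0 := by
  have h1 := adj_cross x w
  rw [h, cross_zero_left, add_zero, tf_zero_left, zero_smul, zero_add] at h1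
  have h2 := cub_adj (cross x w)
  rw [h1, cub_smul, cub_of_adj h, mul_zero] at h2
  exact pow_eq_zero_iff two_ne_zero |>.1 h2.symm

theorem exists_Vop_ne {x : Alb A B C} (h : adj x = 0) (h0 : x ≠ 0) :
    ∃ η, tf x η = 0 ∧ VopL x η ≠ 0 := by
  obtain ⟨g, k1, c, hc, k2⟩ := exists_move1 h h0
  obtain ⟨φ, k3, k4⟩ := k1.exists_S6
  have hs := sim6_one.2 (mem_S6.1 k3)
  have k5 : fs6 φ false x = c • e1 := (congrArg Prod.fst (k4 x)).trans k2
  obtain ⟨η, k6⟩ := hs.pr.b2.2 ⟨0, 0, 0, 0, 0, 1⟩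
  refine ⟨η, ?_, fun h1 => ?_⟩
  · have := hs.pr.tf x η
    rw [k5, k6, tf_smul_left, tf_e1, mul_zero, one_mul] at this
    exact this.symm
  · obtain ⟨v, hv⟩ := φ.surjective (0, e1)
    have k7 := hs.Vop_false x η v
    rw [← VopL_apply x η, h1, LinearMap.zero_apply, hs.semi.zero, smul_zero, k5, k6, hv] at k7
    have k8 := congrArg (fun w : V6 A B C => w.2.x3) k7
    simp [Vop, cross, tf, e1, hc] at k8

end un

/-- (UN) -/
theorem unStmt : UNStmt := by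
  intro F _ _ Γ a b c Φ hΦ x h0 hx hl
  have hW : ∀ Y ∈ (LinearMap.ker (tfL a b c x)).map (VopB a b c x), Y ∈ s6 a b c := by
    rintro _ ⟨η, hη, rfl⟩
    exact VopL_mem hη
  obtain ⟨Y, ⟨η, hη, rfl⟩, k1, k2⟩ := conj_exists hΦ.ov
    ((LinearMap.ker (tfL a b c x)).map (VopB a b c x))
    (by
      rintro φ hφ _ ⟨η, hη, rfl⟩
      obtain ⟨γ, -, ε, ν₁, ν₂, l, hs⟩ := hΦ.sim φ hφ
      obtain ⟨t, ht⟩ := hl φ hφ
      have ht0 : t ≠ 0 := by
        rintro rfl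
        exact hs.semi.ne_zero (x := (x, 0)) (by simp [h0]) (by rw [ht, zero_smul])
      cases ε
      · have k1 : fs6 φ false x = t • x := congrArg Prod.fst ht
        refine ⟨_, ⟨(t / l) • sn6 φ false η, ?_, rfl⟩, fun v => ?_⟩
        · have k2 := hs.pr.tf x η
          rw [k1, show tf x η = 0 from hη, map_zero, mul_zero, tf_smul_left] at k2
          change tf x _ = 0
          rw [tf_smul_right, (mul_eq_zero.1 k2).resolve_left ht0, mul_zero]
        · have k2 := hs.Vop_false x η v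
          rw [k1, ← VopL_apply, ← VopL_apply, ← VopB_apply, ← VopB_apply, map_smul,
            LinearMap.smul_apply, LinearMap.smul_apply] at k2
          rw [map_smul, div_eq_inv_mul, mul_smul, LinearMap.smul_apply, LinearMap.smul_apply, k2,
            inv_smul_smul₀ hs.ne.2.2]
      · have k1 := congrArg Prod.fst ((hs.inl_true x).symm.trans ht)
        exact absurd ((smul_eq_zero.1 k1.symm).resolve_left ht0) h0)
    (fun φ hφ hs Y hY => comm_Z6_s6 (hΦ.lin φ hφ hs) (hW Y hY))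
    (by
      obtain ⟨η, k1, k2⟩ := exists_Vop_ne hx h0
      exact fun h => k2 ((Submodule.eq_bot_iff _).1 h _ ⟨η, k1, rfl⟩))
  exact not_ani_of_nilp hΦ.ov (VopL_mem hη) (VopL_cube hx hη) k1 k2

end Vale.Agent.P011N.Cl
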