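import Vale.Agent.P011N.Cl.JT.U

/-!
Jordan tools: the semilinear similitudes are compatible with the adjoint.
-/

namespace Vale.Agent.P011N.Cl

open Vale.Agent.P011.MPQ Vale.Agent.P011.D4 Vale.Agent.P011.D4.Oct Vale.Agent.P011.E6 Equiv Module
open Vale.Agent.P011.E6.Alb

variable {F : Type} [Field F] [CharZero F] {A B C A' B' C' A'' B'' C'' : Fˣ} {γ γ' : Gl F}
  {ε : Bool} {ν ν₁ ν₂ l : F}

/-- The polarisations of the cubic norm under a semilinear similitude. -/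
theorem tf_adj_of_cub {f : Alb A B C → Alb A' B' C'} (hs : Semi γ f)
    (hc : ∀ x, cub (f x) = ν * γ (cub x)) (x w : Alb A B C) :
    tf (adj (f x)) (f w) = ν * γ (tf (adj x) w) := by
  have h1 := hc (x + w)
  have h2 := hc (x + -w)
  rw [hs.add, cub_add, cub_add, hc, hc] at h1
  rw [hs.add, hs.neg, cub_add, cub_add, hc, cub_neg, cub_neg, hc, adj_neg, adj_neg, tf_neg_right,
    tf_neg_right] at h2
  simp only [map_add, map_neg] at h1 h2
  linear_combination (1 / 2 : F) * h1 - (1 / 2 : F) * h2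

theorem tf_cross_of_cub {f : Alb A B C → Alb A' B' C'} (hs : Semi γ f)
    (hc : ∀ x, cub (f x) = ν * γ (cub x)) (x y w : Alb A B C) :
    tf (f x) (cross (f y) (f w)) = ν * γ (tf x (cross y w)) := by
  have h := tf_adj_of_cub hs hc (x + y) w
  rw [hs.add, adj_add, adj_add, tf_add_left, tf_add_left, tf_add_left, tf_add_left,
    tf_adj_of_cub hs hc, tf_adj_of_cub hs hc, tf_cross, tf_cross, map_add, map_add] at h
  linear_combination h

/-- A surjective semilinear similitude preserves the vectors of rank one. -/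
theorem adj_eq_zero_iff_of_cub {f : Alb A B C → Alb A' B' C'} (hs : Semi γ f)
    (hf : Function.Surjective f) (hc : ∀ x, cub (f x) = ν * γ (cub x)) (hν : ν ≠ 0)
    (x : Alb A B C) : adj (f x) = 0 ↔ adj x = 0 := by
  refine ⟨fun h => eq_zero_of_tf fun w => ?_, fun h => eq_zero_of_tf fun w => ?_⟩
  · have h1 := tf_adj_of_cub hs hc x w
    rw [h, tf_zero_left] at h1
    simpa [hν] using h1.symm
  · obtain ⟨w, rfl⟩ := hf w
    rw [tf_adj_of_cub hs hc, h, tf_zero_left, map_zero, mul_zero]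

/-- A semilinear similitude `f` with its contragredient `g`. -/
structure Pr6 (γ : F → F) (ν₁ ν₂ l : F) (f g : Alb A B C → Alb A' B' C') : Prop where
  s1 : Semi γ f
  s2 : Semi γ g
  c1 : ∀ x, cub (f x) = ν₁ * γ (cub x)
  c2 : ∀ x, cub (g x) = ν₂ * γ (cub x)
  tf : ∀ x y, tf (f x) (g y) = l * γ (tf x y)
  b1 : Function.Bijective f
  b2 : Function.Bijective g
  ne : ν₁ ≠ 0 ∧ ν₂ ≠ 0 ∧ l ≠ 0

section pr

variable {f g : Alb A B C → Alb A' B' C'}

omit [CharZero F] in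
theorem Pr6.swap {γ : F → F} (h : Pr6 γ ν₁ ν₂ l f g) : Pr6 γ ν₂ ν₁ l g f where
  s1 := h.s2
  s2 := h.s1
  c1 := h.c2
  c2 := h.c1
  tf x y := by rw [tf_comm, h.tf, tf_comm]
  b1 := h.b2
  b2 := h.b1
  ne := ⟨h.ne.2.1, h.ne.1, h.ne.2.2⟩

theorem Pr6.adj (h : Pr6 γ ν₁ ν₂ l f g) (x : Alb A B C) :
    l • adj (f x) = ν₁ • g (adj x) := by
  refine eq_of_tf fun w => ?_
  obtain ⟨w, rfl⟩ := h.b1.2 w
  rw [tf_smul_left, tf_smul_left, tf_adj_of_cub h.s1 h.c1, tf_comm (g _), h.tf, tf_comm w]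
  ring

theorem Pr6.cross (h : Pr6 γ ν₁ ν₂ l f g) (x y : Alb A B C) :
    l • cross (f x) (f y) = ν₁ • g (cross x y) := by
  refine eq_of_tf fun w => ?_
  obtain ⟨w, rfl⟩ := h.b1.2 w
  rw [tf_smul_left, tf_smul_left, tf_comm, tf_cross_of_cub h.s1 h.c1, tf_comm (g _), h.tf]
  ring

theorem Pr6.adj_eq (h : Pr6 γ ν₁ ν₂ l f g) (x : Alb A B C) :
    Alb.adj (f x) = (ν₁ / l) • g (Alb.adj x) := by
  rw [div_eq_inv_mul, mul_smul, ← h.adj, inv_smul_smul₀ h.ne.2.2]

theorem Pr6.cross_eq (h : Pr6 γ ν₁ ν₂ l f g) (x y : Alb A B C) :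
    Alb.cross (f x) (f y) = (ν₁ / l) • g (Alb.cross x y) := by
  rw [div_eq_inv_mul, mul_smul, ← h.cross, inv_smul_smul₀ h.ne.2.2]

theorem Pr6.adj_iff (h : Pr6 γ ν₁ ν₂ l f g) (x : Alb A B C) :
    Alb.adj (f x) = 0 ↔ Alb.adj x = 0 :=
  adj_eq_zero_iff_of_cub h.s1 h.b1.2 h.c1 h.ne.1 x

theorem Pr6.tri (h : Pr6 γ ν₁ ν₂ l f g) (x y w : Alb A B C) :
    Alb.tf (f x) (Alb.cross (f y) (f w)) = ν₁ * γ (Alb.tf x (Alb.cross y w)) :=
  tf_cross_of_cub h.s1 h.c1 x y w

omit [CharZero F] in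
theorem cub_diag_one : cub (⟨1, 1, 1, 0, 0, 0⟩ : Alb A B C) = 1 := by simp [cub]

/-- The relation between the multipliers. -/
theorem Pr6.mul_eq (h : Pr6 γ ν₁ ν₂ l f g) : ν₁ * ν₂ = l ^ 3 := by
  have h1 := congrArg cub (h.adj ⟨1, 1, 1, 0, 0, 0⟩)
  rw [cub_smul, cub_smul, cub_adj, h.c1, h.c2, cub_adj, cub_diag_one] at h1
  simp only [one_pow, map_one, mul_one] at h1
  refine mul_left_cancel₀ (pow_ne_zero 2 h.ne.1) ?_
  linear_combination -h1

theorem Pr6.uop (h : Pr6 γ ν₁ ν₂ l f g) (y z : Alb A B C) :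
    uop (f y) (g z) = l • f (uop y z) := by
  have h1 : ν₁ / l * (ν₂ / l) = l := by
    have := h.ne.2.2
    field_simp
    exact h.mul_eq
  rw [Cl.uop, Cl.uop, h.tf, h.adj_eq, cross_smul_left, h.swap.cross_eq, smul_smul, h1, h.s1.sub,
    h.s1.smul]
  module

/-- The map of the pairs. -/
noncomputable def Pr6.perm {γ : F → F} (h : Pr6 γ ν₁ ν₂ l f g) : V6 A B C ≃ V6 A' B' C' :=
  (Equiv.ofBijective f h.b1).prodCongr (Equiv.ofBijective g h.b2)

omit [CharZero F] in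
theorem Pr6.perm_apply {γ : F → F} (h : Pr6 γ ν₁ ν₂ l f g) (x : V6 A B C) :
    h.perm x = (f x.1, g x.2) := rfl

omit [CharZero F] in
theorem Pr6.sim {γ : F → F} (h : Pr6 γ ν₁ ν₂ l f g) : Sim6 γ false ν₁ ν₂ l h.perm where
  semi t x y := Prod.ext (h.s1 t x.1 y.1) (h.s2 t x.2 y.2)
  c1 x := h.c1 x.1
  c2 x := h.c2 x.2
  tf x := h.tf x.1 x.2
  ne := h.ne

end pr

section sim

/-- The component of a similitude with values in the first summand. -/
def fs6 (φ : V6 A B C → V6 A' B' C') (ε : Bool) (x : Alb A B C) : Alb A' B' C' :=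
  (φ (if ε then (0, x) else (x, 0))).1

/-- The component of a similitude with values in the second summand. -/
def sn6 (φ : V6 A B C → V6 A' B' C') (ε : Bool) (x : Alb A B C) : Alb A' B' C' :=
  (φ (if ε then (x, 0) else (0, x))).2

variable {φ : V6 A B C ≃ V6 A' B' C'}

theorem Sim6.apply (h : Sim6 γ ε ν₁ ν₂ l φ) (x : V6 A B C) :
    φ x = (fs6 φ ε (if ε then x.2 else x.1), sn6 φ ε (if ε then x.1 else x.2)) := by
  have h2 : φ x = φ (x.1, 0) + φ (0, x.2) := by rw [← h.semi.add]; simp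
  rw [h2]
  cases ε
  · have h3 := h.fst_zero (x := (0, x.2)) rfl
    have h4 := h.snd_zero (x := (x.1, 0)) rfl
    exact Prod.ext (by simp [h3, fs6]) (by simp [h4, sn6])
  · have h3 := h.fst_zero (x := (x.1, 0)) rfl
    have h4 := h.snd_zero (x := (0, x.2)) rfl
    exact Prod.ext (by simp [h3, fs6]) (by simp [h4, sn6])

theorem Sim6.apply_false (h : Sim6 γ false ν₁ ν₂ l φ) (x y : Alb A B C) :
    φ (x, y) = (fs6 φ false x, sn6 φ false y) := h.apply (x, y)

theorem Sim6.apply_true (h : Sim6 γ true ν₁ ν₂ l φ) (x y : Alb A B C) :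
    φ (x, y) = (fs6 φ true y, sn6 φ true x) := h.apply (x, y)

theorem Sim6.apply' (h : Sim6 γ ε ν₁ ν₂ l φ) (x y : Alb A B C) :
    φ (if ε then (y, x) else (x, y)) = (fs6 φ ε x, sn6 φ ε y) := by
  rw [h.apply]
  cases ε <;> rfl

theorem Sim6.pr (h : Sim6 γ ε ν₁ ν₂ l φ) : Pr6 γ ν₁ ν₂ l (fs6 φ ε) (sn6 φ ε) := by
  have s1 : Semi γ (fs6 φ ε) := fun t x y => by
    have := congrArg Prod.fst
      (h.semi t (if ε then (0, x) else (x, 0)) (if ε then (0, y) else (y, 0)))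
    cases ε <;> simpa [fs6] using this
  have s2 : Semi γ (sn6 φ ε) := fun t x y => by
    have := congrArg Prod.snd
      (h.semi t (if ε then (x, 0) else (0, x)) (if ε then (y, 0) else (0, y)))
    cases ε <;> simpa [sn6] using this
  have inj : ∀ x y, fs6 φ ε x = 0 → sn6 φ ε y = 0 → x = 0 ∧ y = 0 := fun x y hx hy => by
    have h1 := h.apply' x y
    rw [hx, hy, Prod.mk_zero_zero, ← h.semi.zero] at h1
    have h2 := φ.injective h1
    cases ε <;> simp_all
  have sur : ∀ x y, ∃ x' y', fs6 φ ε x' = x ∧ sn6 φ ε y' = y := fun x y => by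
    obtain ⟨v, hv⟩ := φ.surjective (x, y)
    rw [h.apply] at hv
    exact ⟨_, _, congrArg Prod.fst hv, congrArg Prod.snd hv⟩
  refine ⟨s1, s2, fun x => ?_, fun x => ?_, fun x y => ?_, ⟨?_, fun x => ?_⟩, ⟨?_, fun x => ?_⟩,
    h.ne⟩
  · rw [fs6, h.c1]
    cases ε <;> rfl
  · rw [sn6, h.c2]
    cases ε <;> rfl
  · have h1 := h.tf (if ε then (y, x) else (x, y))
    rw [h.apply'] at h1
    rw [h1]
    cases ε
    · rfl
    · rw [tf_comm]
      rfl
  · exact (injective_iff_map_eq_zero s1.hom).2 fun x hx => (inj x 0 hx s2.zero).1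
  · obtain ⟨x', _, h1, _⟩ := sur x 0
    exact ⟨x', h1⟩
  · exact (injective_iff_map_eq_zero s2.hom).2 fun x hx => (inj 0 x s1.zero hx).2
  · obtain ⟨_, x', _, h1⟩ := sur 0 x
    exact ⟨x', h1⟩

theorem Sim6.mul_eq (h : Sim6 γ ε ν₁ ν₂ l φ) : ν₁ * ν₂ = l ^ 3 := h.pr.mul_eq

theorem Sim6.inl (h : Sim6 γ false ν₁ ν₂ l φ) (x : Alb A B C) :
    φ (x, 0) = (fs6 φ false x, 0) := by rw [h.apply_false, h.pr.s2.zero]

theorem Sim6.inr (h : Sim6 γ false ν₁ ν₂ l φ) (x : Alb A B C) :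
    φ (0, x) = (0, sn6 φ false x) := by rw [h.apply_false, h.pr.s1.zero]

theorem Sim6.inl_true (h : Sim6 γ true ν₁ ν₂ l φ) (x : Alb A B C) :
    φ (x, 0) = (0, sn6 φ true x) := by rw [h.apply_true, h.pr.s1.zero]

theorem Sim6.inr_true (h : Sim6 γ true ν₁ ν₂ l φ) (x : Alb A B C) :
    φ (0, x) = (fs6 φ true x, 0) := by rw [h.apply_true, h.pr.s2.zero]

end sim

section dual

theorem exists_tf (m : Alb A B C →ₗ[F] F) : ∃ y, ∀ x, tf x y = m x := by
  have hB : LinearMap.BilinForm.Nondegenerate (tfL A B C) :=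
    ⟨fun x hx => eq_zero_of_tf hx, fun x hx => eq_zero_of_tf fun y => (tf_comm x y).trans (hx y)⟩
  exact ⟨(LinearMap.BilinForm.toDual (tfL A B C) hB).symm m, fun x =>
    (tf_comm _ _).trans (LinearMap.BilinForm.apply_toDual_symm_apply (hB := hB) m x)⟩

/-- The contragredient of a semilinear bijection. -/
theorem exists_dual (f : Alb A B C ≃ Alb A' B' C') (hs : Semi γ f) (hl : l ≠ 0) :
    ∃ g : Alb A B C ≃ Alb A' B' C', Semi γ g ∧ ∀ x y, tf (f x) (g y) = l * γ (tf x y) := by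
  have k1 : ∀ y : Alb A B C, ∃ z : Alb A' B' C', ∀ x, tf (f x) z = l * γ (tf x y) := fun y => by
    obtain ⟨z, hz⟩ := exists_tf (A := A') (B := B') (C := C')
      ⟨⟨fun w => l * γ (tf (f.symm w) y), fun w w' => by
        rw [hs.symm.add, tf_add_left, map_add, mul_add]⟩, fun t w => by
        simp only [hs.symm.smul, tf_smul_left, map_mul, RingHom.id_apply, smul_eq_mul]
        rw [show γ (γ⁻¹ t) = t from γ.apply_symm_apply t]
        ring⟩
    exact ⟨z, fun x => by simpa using hz (f x)⟩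
  have k2 : ∀ z : Alb A' B' C', ∃ y : Alb A B C, ∀ x, tf (f x) z = l * γ (tf x y) := fun z => by
    obtain ⟨y, hy⟩ := exists_tf (A := A) (B := B) (C := C)
      ⟨⟨fun w => γ.symm (l⁻¹ * tf (f w) z), fun w w' => by
        rw [hs.add, tf_add_left, mul_add, map_add]⟩, fun t w => by
        simp only [hs.smul, tf_smul_left, map_mul, RingHom.id_apply, smul_eq_mul,
          AlgEquiv.symm_apply_apply]
        ring⟩
    refine ⟨y, fun x => ?_⟩
    rw [hy]
    simp [hl]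
  choose g hg using k1
  have ext : ∀ z z' : Alb A' B' C', (∀ x, tf (f x) z = tf (f x) z') → z = z' := fun z z' hz =>
    eq_of_tf fun w => by
      obtain ⟨w, rfl⟩ := f.surjective w
      rw [tf_comm, hz, tf_comm]
  have hb : Function.Bijective g := by
    refine ⟨fun y y' hy => eq_of_tf fun w => ?_, fun z => ?_⟩
    · have h1 := hg y w
      rw [hy, hg] at h1
      rw [tf_comm, tf_comm y']
      exact (γ.injective (mul_left_cancel₀ hl h1)).symm
    · obtain ⟨y, hy⟩ := k2 z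
      exact ⟨y, ext _ _ fun x => by rw [hg, hy]⟩
  refine ⟨Equiv.ofBijective g hb, fun t x y => ext _ _ fun w => ?_, fun x y => hg y x⟩
  simp only [Equiv.ofBijective_apply, hg, tf_add_right, tf_smul_right, map_add, map_mul]
  ring

/-- The contragredient of a similitude is a similitude. -/
theorem pr6_of {f g : Alb A B C ≃ Alb A' B' C'} (hs : Semi γ f) (hs' : Semi γ g)
    (hc : ∀ x, cub (f x) = ν * γ (cub x)) (ht : ∀ x y, tf (f x) (g y) = l * γ (tf x y))
    (hν : ν ≠ 0) (hl : l ≠ 0) : Pr6 γ ν (l ^ 3 / ν) l f g := by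
  refine ⟨hs, hs', hc, ?_, ht, f.bijective, g.bijective, hν, div_ne_zero (pow_ne_zero _ hl) hν, hl⟩
  have k1 : ∀ x, l • adj (f x) = ν • g (adj x) := fun x => eq_of_tf fun w => by
    obtain ⟨w, rfl⟩ := f.surjective w
    rw [tf_smul_left, tf_smul_left, tf_adj_of_cub hs hc, tf_comm (g _), ht, tf_comm w]
    ring
  have k2 : ∀ y, cub y ≠ 0 → γ.symm (cub (g y)) = γ.symm (l ^ 3 / ν) * cub y := fun y hy => by
    have h1 := congrArg cub (k1 (adj y))
    rw [adj_adj, hs'.smul, cub_smul, cub_smul, cub_smul, cub_adj, hc, cub_adj, map_pow] at h1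
    have h2 : γ (cub y) ≠ 0 := by simpa using hy
    apply γ.injective
    rw [map_mul, AlgEquiv.apply_symm_apply, AlgEquiv.apply_symm_apply]
    field_simp
    refine mul_left_cancel₀ (mul_ne_zero (pow_ne_zero 2 hν) (pow_ne_zero 3 h2)) ?_
    linear_combination -h1
  have k3 : (fun y => γ.symm (cub (g y)) - γ.symm (l ^ 3 / ν) * cub y) ∈ PF F (Alb A B C) :=
    PF.sub (PF.semi (PM.acub PM.id) hs') (PF.mul (PF.const _) (PM.acub PM.id))
  intro y
  by_contra hy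
  have h1 : γ.symm (cub (g y)) - γ.symm (l ^ 3 / ν) * cub y ≠ 0 := fun h => hy (by
    have := congrArg γ (sub_eq_zero.1 h)
    simpa using this)
  obtain ⟨z, -, hz⟩ := exists_ne_all (F := F) (⊤ : AddSubmonoid (Alb A B C)) (by simp)
    (Finset.univ : Finset Bool)
    (f := fun b => if b then fun y => cub y else
      fun y => γ.symm (cub (g y)) - γ.symm (l ^ 3 / ν) * cub y)
    (fun b _ => by cases b; exacts [k3, PM.acub PM.id])
    (fun b _ => by
      cases b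
      exacts [⟨y, h1⟩, ⟨⟨1, 1, 1, 0, 0, 0⟩, by simp [cub_diag_one]⟩])
  exact hz false (Finset.mem_univ _) (sub_eq_zero.2 (k2 z (hz true (Finset.mem_univ _))))

/-- Every semilinear similitude of the cubic norm extends to the pairs. -/
theorem exists_pr6 (f : Alb A B C ≃ Alb A' B' C') (hs : Semi γ f)
    (hc : ∀ x, cub (f x) = ν * γ (cub x)) (hν : ν ≠ 0) (hl : l ≠ 0) :
    ∃ g : Alb A B C ≃ Alb A' B' C', Pr6 γ ν (l ^ 3 / ν) l f g := by
  obtain ⟨g, h1, h2⟩ := exists_dual f hs hl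
  exact ⟨g, pr6_of hs h1 hc h2 hν hl⟩

theorem exists_sim6 (f : Alb A B C ≃ Alb A' B' C') (hs : Semi γ f)
    (hc : ∀ x, cub (f x) = ν * γ (cub x)) (hν : ν ≠ 0) (hl : l ≠ 0) :
    ∃ φ : V6 A B C ≃ V6 A' B' C', Sim6 γ false ν (l ^ 3 / ν) l φ ∧ ∀ x, φ (x, 0) = (f x, 0) := by
  obtain ⟨g, h⟩ := exists_pr6 f hs hc hν hl
  exact ⟨h.perm, h.sim, fun x => by rw [h.perm_apply, h.s2.zero]⟩

/-- Every linear bijection which preserves the cubic norm comes from the group. -/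
theorem exists_S6 (f : Perm (Alb A B C)) (hs : Semi (id : F → F) f)
    (hc : ∀ x, cub (f x) = cub x) : ∃ g ∈ S6 A B C, ∀ x, g (x, 0) = (f x, 0) := by
  obtain ⟨φ, h1, h2⟩ := exists_sim6 (γ := 1) (ν := 1) (l := 1) f (semi_one.2 hs)
    (fun x => by simpa using hc x) one_ne_zero one_ne_zero
  exact ⟨φ, mem_S6.2 (h1.cast (γ' := 1) rfl rfl rfl (by simp) rfl), h2⟩

/-- A similitude is determined by its first component and by the multiplier of the trace form. -/
theorem Sim6.ext_fst {φ φ' : V6 A B C ≃ V6 A' B' C'} {ν₁' ν₂' : F} (h : Sim6 γ false ν₁ ν₂ l φ)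
    (h' : Sim6 γ false ν₁' ν₂' l φ') (he : ∀ x, φ (x, 0) = φ' (x, 0)) : φ = φ' := by
  have h1 : ∀ x, fs6 φ false x = fs6 φ' false x := fun x => congrArg Prod.fst (he x)
  ext1 ⟨x, y⟩
  rw [h.apply_false, h'.apply_false, h1]
  refine Prod.ext rfl (eq_of_tf fun w => ?_)
  obtain ⟨w, rfl⟩ := h.pr.b1.2 w
  rw [tf_comm, h.pr.tf, h1, tf_comm _ (fs6 _ _ _), h'.pr.tf]

end dual

end Vale.Agent.P011N.Cl
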