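import Vale.Agent.P011N.Cl.JT.Adj
import Vale.Agent.P011N.Cl.N6.Tv

/-!
Jordan tools: the frame lemma.
-/

namespace Vale.Agent.P011N.Cl

open Vale.Agent.P011.MPQ Vale.Agent.P011.D4 Vale.Agent.P011.D4.Oct Vale.Agent.P011.E6 Equiv Module
open Vale.Agent.P011.E6.Alb

variable {F : Type} [Field F] {A B C : Fˣ}

/-- The linear bijection preserves the cubic norm. -/
def CubInv (g : Alb A B C ≃ₗ[F] Alb A B C) : Prop := ∀ x, cub (g x) = cub x

theorem CubInv.refl : CubInv (LinearEquiv.refl F (Alb A B C)) := fun _ => rfl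

theorem CubInv.trans {g h : Alb A B C ≃ₗ[F] Alb A B C} (hg : CubInv g) (hh : CubInv h) :
    CubInv (g.trans h) := fun x => (hh _).trans (hg x)

theorem CubInv.symm {g : Alb A B C ≃ₗ[F] Alb A B C} (hg : CubInv g) : CubInv g.symm := fun x => by
  rw [← hg, LinearEquiv.apply_symm_apply]

theorem ci_rot : CubInv (rot : Alb A B C ≃ₗ[F] Alb A B C) := cub_rot

theorem rot_symm_apply (x : Alb A B C) : rot.symm x = ⟨x.d2, x.d3, x.d1, x.x2, x.x3, x.x1⟩ := rfl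

theorem rot_e1 : rot (e1 : Alb A B C) = e2 := rfl
theorem rot_e2 : rot (e2 : Alb A B C) = e3 := rfl
theorem rot_e3 : rot (e3 : Alb A B C) = e1 := rfl
theorem rot_symm_e1 : rot.symm (e1 : Alb A B C) = e3 := rfl
theorem rot_symm_e2 : rot.symm (e2 : Alb A B C) = e1 := rfl
theorem rot_symm_e3 : rot.symm (e3 : Alb A B C) = e2 := rfl

theorem tv_e2 (v : Oct A B C) : tv v (e2 : Alb A B C) = e2 := by simp [tv_apply, e2]
theorem tv_e3 (v : Oct A B C) : tv v (e3 : Alb A B C) = e3 := by simp [tv_apply, e3]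
theorem tw_e1 (v : Oct A B C) : tw v (e1 : Alb A B C) = e1 := by simp [tw_apply, e1]
theorem tw_e3 (v : Oct A B C) : tw v (e3 : Alb A B C) = e3 := by simp [tw_apply, e3]

theorem tf_e1 (x : Alb A B C) : tf e1 x = x.d1 := by simp [tf, e1]
theorem tf_e2 (x : Alb A B C) : tf e2 x = x.d2 := by simp [tf, e2]
theorem tf_e3 (x : Alb A B C) : tf e3 x = x.d3 := by simp [tf, e3]
theorem cross_e1_e2 : cross (e1 : Alb A B C) e2 = e3 := by simp [cross, e1, e2, e3]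
theorem cross_e2_e3 : cross (e2 : Alb A B C) e3 = e1 := by simp [cross, e1, e2, e3]
theorem cross_e3_e1 : cross (e3 : Alb A B C) e1 = e2 := by simp [cross, e1, e2, e3]

/-- A vector of rank one whose first row is diagonal. -/
theorem eq_e1_of_adj {x : Alb A B C} (h : adj x = 0) (h1 : x.d1 ≠ 0) (h2 : x.x2 = 0)
    (h3 : x.x3 = 0) : x = x.d1 • e1 := by
  have k1 := congrArg Alb.d2 h
  have k2 := congrArg Alb.d3 h
  have k3 := congrArg Alb.x1 h
  simp [adj, h1, h2, h3] at k1 k2 k3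
  ext1 <;> simp [e1, *]

variable [CharZero F]

theorem CubInv.adj_iff {g : Alb A B C ≃ₗ[F] Alb A B C} (hg : CubInv g) (x : Alb A B C) :
    adj (g x) = 0 ↔ adj x = 0 :=
  adj_eq_zero_iff_of_cub (γ := 1) (ν := 1) (semi_one.2 (semi_lin g.toLinearMap)) g.surjective
    (fun x => by simpa using hg x) one_ne_zero x

theorem CubInv.tri {g : Alb A B C ≃ₗ[F] Alb A B C} (hg : CubInv g) (x y z : Alb A B C) :
    tf (g x) (cross (g y) (g z)) = tf x (cross y z) := by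
  simpa using tf_cross_of_cub (γ := 1) (ν := 1) (semi_one.2 (semi_lin g.toLinearMap))
    (fun x => by simpa using hg x) x y z

theorem CubInv.exists_S6 {g : Alb A B C ≃ₗ[F] Alb A B C} (hg : CubInv g) :
    ∃ φ ∈ S6 A B C, ∀ x, φ (x, 0) = (g x, 0) :=
  Cl.exists_S6 g.toEquiv (semi_lin g.toLinearMap) hg

/-- Elimination in the first row. -/
theorem clear1 {x : Alb A B C} (h : adj x = 0) (h1 : x.d1 ≠ 0) :
    ∃ g, CubInv g ∧ g x = x.d1 • e1 ∧ g e2 = e2 ∧ g e3 = e3 := by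
  have hg : CubInv ((((tv (-(x.d1⁻¹ • x.x3))).trans rot).trans (tw (-(x.d1⁻¹ • x.x2)))).trans
      rot.symm) := (((CubInv.trans (cub_tv _) ci_rot).trans (cub_tw _))).trans ci_rot.symm
  refine ⟨_, hg, ?_, ?_, ?_⟩
  · have k := (hg.adj_iff x).2 h
    simp only [LinearEquiv.trans_apply, tv_apply, rot_apply, tw_apply, rot_symm_apply, smul_neg,
        smul_inv_smul₀ h1, add_neg_cancel, mul_zero, star_zero, add_zero] at k ⊢
    exact eq_e1_of_adj k h1 rfl rfl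
  · simp only [LinearEquiv.trans_apply, tv_e2, rot_e2, tw_e3, rot_symm_e3]
  · simp only [LinearEquiv.trans_apply, tv_e3, rot_e3, tw_e1, rot_symm_e1]

/-- Elimination in the second row. -/
theorem clear2 {x : Alb A B C} (h : adj x = 0) (h1 : x.d2 ≠ 0) :
    ∃ g, CubInv g ∧ g x = x.d2 • e2 ∧ g e3 = e3 ∧ g e1 = e1 := by
  obtain ⟨g, k1, k2, k3, k4⟩ := clear1 ((ci_rot.symm.adj_iff x).2 h) h1
  refine ⟨_, (ci_rot.symm.trans k1).trans ci_rot, ?_, ?_, ?_⟩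
  · rw [LinearEquiv.trans_apply, LinearEquiv.trans_apply, k2, map_smul]
    rfl
  · rw [LinearEquiv.trans_apply, LinearEquiv.trans_apply, rot_symm_e3, k3, rot_e2]
  · rw [LinearEquiv.trans_apply, LinearEquiv.trans_apply, rot_symm_e1, k4, rot_e3]

/-- Elimination in the third row. -/
theorem clear3 {x : Alb A B C} (h : adj x = 0) (h1 : x.d3 ≠ 0) :
    ∃ g, CubInv g ∧ g x = x.d3 • e3 ∧ g e1 = e1 ∧ g e2 = e2 := by
  obtain ⟨g, k1, k2, k3, k4⟩ := clear1 ((ci_rot.adj_iff x).2 h) h1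
  refine ⟨_, (ci_rot.trans k1).trans ci_rot.symm, ?_, ?_, ?_⟩
  · rw [LinearEquiv.trans_apply, LinearEquiv.trans_apply, k2, map_smul]
    rfl
  · rw [LinearEquiv.trans_apply, LinearEquiv.trans_apply, rot_e1, k3, rot_symm_e2]
  · rw [LinearEquiv.trans_apply, LinearEquiv.trans_apply, rot_e2, k4, rot_symm_e3]

/-- A nonzero block gets a nonzero corner. -/
theorem corner12 {x : Alb A B C} (h : ¬ (x.d1 = 0 ∧ x.d2 = 0 ∧ x.x3 = 0)) :
    ∃ g, CubInv g ∧ (g x).d1 ≠ 0 ∧ g e3 = e3 := by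
  by_contra hn
  have k : ∀ v, x.d1 + bil v x.x3 + x.d2 * norm v = 0 := fun v => by
    by_contra hv
    exact hn ⟨tw v, cub_tw v, by rwa [tw_apply], tw_e3 v⟩
  have k0 : x.d1 = 0 := by simpa using k 0
  have k1 : x.x3 = 0 := eq_zero_of_bil fun v => by
    have h1 := k v
    have h2 := k (-v)
    rw [bil_neg_left, Oct.norm_neg] at h2
    rw [bil_comm]
    linear_combination (1 / 2 : F) * h1 - (1 / 2 : F) * h2
  exact h ⟨k0, by simpa [k0, k1] using k 1, k1⟩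

theorem corner23 {x : Alb A B C} (h : ¬ (x.d2 = 0 ∧ x.d3 = 0 ∧ x.x1 = 0)) :
    ∃ g, CubInv g ∧ (g x).d2 ≠ 0 ∧ g e1 = e1 := by
  obtain ⟨g, k1, k2, k3⟩ := corner12 (x := rot.symm x) h
  refine ⟨_, (ci_rot.symm.trans k1).trans ci_rot, k2, ?_⟩
  rw [LinearEquiv.trans_apply, LinearEquiv.trans_apply, rot_symm_e1, k3, rot_e3]

theorem corner {x : Alb A B C} (h : x ≠ 0) : ∃ g, CubInv g ∧ (g x).d1 ≠ 0 := by
  by_cases h1 : x.d1 = 0 ∧ x.d2 = 0 ∧ x.x3 = 0
  · by_cases h2 : x.d2 = 0 ∧ x.d3 = 0 ∧ x.x1 = 0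
    · obtain ⟨g, k1, k2, -⟩ := corner12 (x := rot x) fun h3 =>
        h (Alb.ext h1.1 h1.2.1 h2.2.1 h2.2.2 h3.2.2 h1.2.2)
      exact ⟨_, ci_rot.trans k1, k2⟩
    · obtain ⟨g, k1, k2, -⟩ := corner12 (x := rot.symm x) h2
      exact ⟨_, ci_rot.symm.trans k1, k2⟩
  · obtain ⟨g, k1, k2, -⟩ := corner12 h1
    exact ⟨g, k1, k2⟩

/-- A vector of rank one is moved to the first diagonal line. -/
theorem exists_move1 {x : Alb A B C} (h : adj x = 0) (h0 : x ≠ 0) :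
    ∃ g, CubInv g ∧ ∃ c : F, c ≠ 0 ∧ g x = c • e1 := by
  obtain ⟨g, k1, k2⟩ := corner h0
  obtain ⟨g', k3, k4, -⟩ := clear1 ((k1.adj_iff x).2 h) k2
  exact ⟨_, k1.trans k3, _, k2, k4⟩

/-- Two vectors of rank one in general position are moved to the first two diagonal lines. -/
theorem exists_move2 {x y : Alb A B C} (hx : adj x = 0) (hy : adj y = 0) (h : cross x y ≠ 0) :
    ∃ g, CubInv g ∧ ∃ c d : F, c ≠ 0 ∧ d ≠ 0 ∧ g x = c • e1 ∧ g y = d • e2 := by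
  obtain ⟨g, k1, c, hc, k2⟩ := exists_move1 hx (by rintro rfl; exact h (cross_zero_left _))
  obtain ⟨g', k3, k4, k5⟩ := corner23 (x := g y) fun h3 => h (eq_zero_of_tf fun z => by
    rw [tf_cross, ← k1.tri, k2, tf_smul_left, tf_e1]
    simp [cross, h3.1, h3.2.1, h3.2.2])
  obtain ⟨g'', k6, k7, -, k8⟩ := clear2 ((k3.adj_iff _).2 ((k1.adj_iff y).2 hy)) k4
  refine ⟨_, (k1.trans k3).trans k6, c, _, hc, k4, ?_, k7⟩
  rw [LinearEquiv.trans_apply, LinearEquiv.trans_apply, k2, map_smul, map_smul, k5, k8]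

/-- **The frame lemma**, for linear bijections. -/
theorem exists_move3 {x y z : Alb A B C} (hx : adj x = 0) (hy : adj y = 0) (hz : adj z = 0)
    (h : tf x (cross y z) ≠ 0) : ∃ g, CubInv g ∧ ∃ c d e : F, c ≠ 0 ∧ d ≠ 0 ∧ e ≠ 0 ∧
      g x = c • e1 ∧ g y = d • e2 ∧ g z = e • e3 := by
  obtain ⟨g, k1, c, d, hc, hd, k2, k3⟩ := exists_move2 hx hy fun h0 =>
    h (by rw [← tf_cross, h0, tf_zero_left])
  have k4 : (g z).d3 ≠ 0 := fun h0 => h (by
    rw [← k1.tri, ← tf_cross, k2, k3, cross_smul_left, cross_smul_right, cross_e1_e2,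
      tf_smul_left, tf_smul_left, tf_e3, h0, mul_zero, mul_zero])
  obtain ⟨g', k5, k6, k7, k8⟩ := clear3 ((k1.adj_iff z).2 hz) k4
  refine ⟨_, k1.trans k5, c, d, _, hc, hd, k4, ?_, ?_, k6⟩
  · rw [LinearEquiv.trans_apply, k2, map_smul, k7]
  · rw [LinearEquiv.trans_apply, k3, map_smul, k8]

/-- **The frame lemma.** -/
theorem frame_lemma {x : Fin 3 → Alb A B C} (hx : ∀ i, adj (x i) = 0)
    (h : tf (x 0) (cross (x 1) (x 2)) ≠ 0) : ∃ g ∈ S6 A B C, ∃ c : Fin 3 → F, (∀ i, c i ≠ 0) ∧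
      ∀ i, g (x i, 0) = (c i • ![e1, e2, e3] i, 0) := by
  obtain ⟨g, k1, c, d, e, hc, hd, he, k2, k3, k4⟩ := exists_move3 (hx 0) (hx 1) (hx 2) h
  obtain ⟨φ, h1, h2⟩ := k1.exists_S6
  refine ⟨φ, h1, ![c, d, e], fun i => ?_, fun i => ?_⟩
  · fin_cases i
    exacts [hc, hd, he]
  · rw [h2]
    fin_cases i
    exacts [congrArg (·, 0) k2, congrArg (·, 0) k3, congrArg (·, 0) k4]

end Vale.Agent.P011N.Cl
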