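import Vale.Agent.P011N.Cl.JT.Adj
import Vale.Agent.P011N.Cl.Defs2
import Vale.Agent.P011N.E2.Simp

/-!
Jordan tools: the Lie algebra of the group of the cubic norm, in the sum of the two
representations of dimension twenty-seven.
-/

namespace Vale.Agent.P011N.Cl

open Vale.Agent.P011.MPQ Vale.Agent.P011.D4 Vale.Agent.P011.D4.Oct Vale.Agent.P011.E6 Equiv Module
open Vale.Agent.P011.E6.Alb Vale.Agent.P011.H327.Star

variable {F : Type} [Field F] {A B C A' B' C' : Fˣ}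

/-- The Lie algebra of the group of the cubic norm. -/
def s6 (A B C : Fˣ) : Submodule F (End F (V6 A B C)) where
  carrier := {Z | ∀ v, tf (adj v.1) (Z v).1 = 0 ∧ tf (adj v.2) (Z v).2 = 0 ∧
    tf (Z v).1 v.2 + tf v.1 (Z v).2 = 0}
  zero_mem' v := by simp
  add_mem' := fun {Y Z} hY hZ v => by
    obtain ⟨h1, h2, h3⟩ := hY v
    obtain ⟨k1, k2, k3⟩ := hZ v
    simp only [LinearMap.add_apply, Prod.fst_add, Prod.snd_add, tf_add_left, tf_add_right]
    exact ⟨by rw [h1, k1, add_zero], by rw [h2, k2, add_zero], by linear_combination h3 + k3⟩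
  smul_mem' := fun t Z hZ v => by
    obtain ⟨h1, h2, h3⟩ := hZ v
    simp only [LinearMap.smul_apply, Prod.smul_fst, Prod.smul_snd, tf_smul_left, tf_smul_right]
    exact ⟨by rw [h1, mul_zero], by rw [h2, mul_zero], by linear_combination t * h3⟩

theorem mem_s6' {Z : End F (V6 A B C)} : Z ∈ s6 A B C ↔ ∀ v, tf (adj v.1) (Z v).1 = 0 ∧
    tf (adj v.2) (Z v).2 = 0 ∧ tf (Z v).1 v.2 + tf v.1 (Z v).2 = 0 := Iff.rfl

/-- The first diagonal block. -/
def bk1 : End F (V6 A B C) →ₗ[F] End F (Alb A B C) where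
  toFun Z := LinearMap.fst F _ _ ∘ₗ Z ∘ₗ LinearMap.inl F _ _
  map_add' _ _ := rfl
  map_smul' _ _ := rfl

/-- The second diagonal block. -/
def bk2 : End F (V6 A B C) →ₗ[F] End F (Alb A B C) where
  toFun Z := LinearMap.snd F _ _ ∘ₗ Z ∘ₗ LinearMap.inr F _ _
  map_add' _ _ := rfl
  map_smul' _ _ := rfl

theorem bk1_apply (Z : End F (V6 A B C)) (x : Alb A B C) : bk1 Z x = (Z (x, 0)).1 := rfl

theorem bk2_apply (Z : End F (V6 A B C)) (x : Alb A B C) : bk2 Z x = (Z (0, x)).2 := rfl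

theorem bk1_prodMap (Y Y' : End F (Alb A B C)) : bk1 (Y.prodMap Y') = Y := rfl

theorem bk2_prodMap (Y Y' : End F (Alb A B C)) : bk2 (Y.prodMap Y') = Y' := rfl

/-- The operator `Y'` is the negative of the transpose of `Y`. -/
def Du (Y Y' : End F (Alb A B C)) : Prop := ∀ x y, tf (Y x) y + tf x (Y' y) = 0

theorem Du.swap {Y Y' : End F (Alb A B C)} (h : Du Y Y') : Du Y' Y := fun x y => by
  rw [tf_comm, tf_comm x, add_comm, h]

theorem Du.left {Y Y' : End F (Alb A B C)} (h : Du Y Y') (x y : Alb A B C) :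
    tf (Y x) y = -tf x (Y' y) := eq_neg_of_add_eq_zero_left (h x y)

theorem Du.brk {Y Y' Z Z' : End F (Alb A B C)} (h : Du Y Y') (k : Du Z Z') :
    Du (Y * Z - Z * Y) (Y' * Z' - Z' * Y') := fun x y => by
  simp only [LinearMap.sub_apply, End.mul_apply, tf_sub_left, tf_sub_right, h.left, k.left]
  ring

variable [CharZero F]

theorem Du.unique {Y Y' Y'' : End F (Alb A B C)} (h : Du Y Y') (k : Du Y Y'') : Y' = Y'' :=
  LinearMap.ext fun y => eq_of_tf fun x => by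
    linear_combination h.swap y x - k.swap y x

theorem exists_du (Y : End F (Alb A B C)) : ∃ Y', Du Y Y' := by
  have k : ∀ y : Alb A B C, ∃ z, ∀ x, tf x z = -tf (Y x) y := fun y =>
    exists_tf (-((tfL A B C).flip y ∘ₗ Y))
  choose g hg using k
  refine ⟨⟨⟨g, fun y y' => eq_of_tf fun x => ?_⟩, fun t y => eq_of_tf fun x => ?_⟩,
    fun x y => ?_⟩
  · rw [tf_comm, tf_comm _ x, tf_add_right, hg, hg, hg, tf_add_right, neg_add]
  · simp only [RingHom.id_apply]
    rw [tf_comm, tf_comm _ x, tf_smul_right, hg, hg, tf_smul_right, mul_neg]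
  · exact add_eq_zero_iff_neg_eq.2 (hg y x).symm

/-- A polynomial function which vanishes on the invertible elements is zero. -/
theorem pf_zero_of_cub {f : Alb A B C → F} (hf : f ∈ PF F (Alb A B C))
    (h : ∀ y, cub y ≠ 0 → f y = 0) (y : Alb A B C) : f y = 0 := by
  by_contra hy
  obtain ⟨z, -, hz⟩ := exists_ne_all (F := F) (⊤ : AddSubmonoid (Alb A B C)) (by simp)
    (Finset.univ : Finset Bool) (f := fun b => if b then fun y => cub y else f)
    (fun b _ => by cases b; exacts [hf, PM.acub PM.id])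
    (fun b _ => by
      cases b
      exacts [⟨y, hy⟩, ⟨⟨1, 1, 1, 0, 0, 0⟩, by simp [cub_diag_one]⟩])
  exact hz false (Finset.mem_univ _) (h z (hz true (Finset.mem_univ _)))

theorem Du.cross {Y Y' : End F (Alb A B C)} (h : Du Y Y') (hY : Dr Y) (x y : Alb A B C) :
    Y' (cross x y) = cross (Y x) y + cross x (Y y) := by
  refine eq_of_tf fun z => ?_
  have h1 := hY.pol x y z
  rw [h.swap.left, tf_add_left, tf_cross (Y x), tf_comm (Y x), tf_cross_comm x (Y y),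
    cross_comm x z]
  linear_combination -h1

theorem Du.adj {Y Y' : End F (Alb A B C)} (h : Du Y Y') (hY : Dr Y) (x : Alb A B C) :
    Y' (adj x) = Alb.cross x (Y x) := by
  have h1 := h.cross hY x x
  rw [Alb.cross_self, map_smul, cross_comm (Y x), ← two_smul F] at h1
  exact smul_right_injective _ two_ne_zero h1

theorem Du.dr {Y Y' : End F (Alb A B C)} (h : Du Y Y') (hY : Dr Y) : Dr Y' := by
  refine pf_zero_of_cub (PM.id.aadj.atf (PM.lin Y')) fun y hy => ?_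
  have h1 : tf (Alb.adj (Alb.adj (Alb.adj y))) (Y' (Alb.adj (Alb.adj y))) = 0 := by
    rw [h.adj hY, adj_adj (Alb.adj y), tf_smul_left, tf_cross_self, hY, mul_zero, mul_zero]
  rw [adj_adj y, adj_smul, map_smul, tf_smul_left, tf_smul_right] at h1
  simpa [hy] using h1

theorem prodMap_mem_s6 {Y Y' : End F (Alb A B C)} (hY : Dr Y) (h : Du Y Y') :
    Y.prodMap Y' ∈ s6 A B C := fun v => ⟨hY v.1, h.dr hY v.2, h v.1 v.2⟩

theorem s6_fst_zero {Z : End F (V6 A B C)} (h : Z ∈ s6 A B C) (y : Alb A B C) :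
    (Z (0, y)).1 = 0 := eq_zero_of_adj fun w => by
  have h1 := (h (w, y)).1
  have h2 := (h (w, 0)).1
  rw [show ((w, y) : V6 A B C) = (w, 0) + (0, y) by simp, map_add] at h1
  simpa [tf_add_right, h2] using h1

theorem s6_snd_zero {Z : End F (V6 A B C)} (h : Z ∈ s6 A B C) (x : Alb A B C) :
    (Z (x, 0)).2 = 0 := eq_zero_of_adj fun w => by
  have h1 := (h (x, w)).2.1
  have h2 := (h (0, w)).2.1
  rw [show ((x, w) : V6 A B C) = (x, 0) + (0, w) by simp, map_add] at h1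
  simpa [tf_add_right, h2] using h1

theorem s6_apply {Z : End F (V6 A B C)} (h : Z ∈ s6 A B C) (v : V6 A B C) :
    Z v = (bk1 Z v.1, bk2 Z v.2) := by
  have h1 : Z v = Z (v.1, 0) + Z (0, v.2) := by rw [← map_add]; simp
  rw [h1]
  exact Prod.ext (by simp [s6_fst_zero h, bk1_apply]) (by simp [s6_snd_zero h, bk2_apply])

theorem s6_eq {Z : End F (V6 A B C)} (h : Z ∈ s6 A B C) : Z = (bk1 Z).prodMap (bk2 Z) :=
  LinearMap.ext (s6_apply h)

omit [CharZero F] in
theorem s6_dr1 {Z : End F (V6 A B C)} (h : Z ∈ s6 A B C) : Dr (bk1 Z) := fun x => (h (x, 0)).1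

omit [CharZero F] in
theorem s6_dr2 {Z : End F (V6 A B C)} (h : Z ∈ s6 A B C) : Dr (bk2 Z) := fun x => (h (0, x)).2.1

theorem s6_du {Z : End F (V6 A B C)} (h : Z ∈ s6 A B C) : Du (bk1 Z) (bk2 Z) := fun x y => by
  have h1 := (h (x, y)).2.2
  rwa [s6_apply h] at h1

theorem mem_s6 {Z : End F (V6 A B C)} : Z ∈ s6 A B C ↔ ∃ Y Y' : End F (Alb A B C), Dr Y ∧
    (∀ x y, tf (Y x) y + tf x (Y' y) = 0) ∧ ∀ v, Z v = (Y v.1, Y' v.2) := by
  refine ⟨fun h => ⟨_, _, s6_dr1 h, s6_du h, s6_apply h⟩, ?_⟩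
  rintro ⟨Y, Y', h1, h2, h3⟩
  rw [show Z = Y.prodMap Y' from LinearMap.ext h3]
  exact prodMap_mem_s6 h1 h2

theorem inS6_iff {Z : End F (V6 A B C)} : InS6 Z ↔ Z ∈ s6 A B C := mem_s6.symm

theorem exists_s6 {Y : End F (Alb A B C)} (hY : Dr Y) : ∃ Z ∈ s6 A B C, bk1 Z = Y := by
  obtain ⟨Y', h⟩ := exists_du Y
  exact ⟨_, prodMap_mem_s6 hY h, rfl⟩

theorem s6_ext {Z Z' : End F (V6 A B C)} (h : Z ∈ s6 A B C) (h' : Z' ∈ s6 A B C)
    (he : bk1 Z = bk1 Z') : Z = Z' := by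
  rw [s6_eq h, s6_eq h', he, (s6_du h).unique (he ▸ s6_du h')]

theorem bk1_mul {Y : End F (V6 A B C)} (hY : Y ∈ s6 A B C) (Z : End F (V6 A B C)) :
    bk1 (Y * Z) = bk1 Y * bk1 Z := LinearMap.ext fun x => by
  rw [bk1_apply, End.mul_apply, s6_apply hY, End.mul_apply, bk1_apply Z]

theorem s6_brk {Y Z : End F (V6 A B C)} (hY : Y ∈ s6 A B C) (hZ : Z ∈ s6 A B C) :
    Y * Z - Z * Y ∈ s6 A B C := by
  refine mem_s6.2 ⟨_, _, (s6_dr1 hY).brk (s6_dr1 hZ), (s6_du hY).brk (s6_du hZ), fun v => ?_⟩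
  simp only [LinearMap.sub_apply, End.mul_apply]
  rw [s6_apply hY, s6_apply hZ, s6_apply hZ, s6_apply hY]
  rfl

/-- The Lie algebra is simple. -/
theorem s6_simple (U : Submodule F (End F (V6 A B C))) (hle : U ≤ s6 A B C) (h0 : U ≠ ⊥)
    (hU : ∀ Y ∈ s6 A B C, ∀ Z ∈ U, Y * Z - Z * Y ∈ U) : s6 A B C ≤ U := by
  intro X hX
  obtain ⟨Z, hZ, hZ0⟩ := Submodule.exists_mem_ne_zero_of_ne_bot h0
  have h1 : bk1 X ∈ U.map bk1 := by
    refine E2.dr_simple (U := U.map bk1) ?_ ?_ (Submodule.mem_map_of_mem hZ) ?_ (s6_dr1 hX)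
    · rintro Y hY _ ⟨W, hW, rfl⟩
      obtain ⟨Y', k1, rfl⟩ := exists_s6 hY
      exact ⟨_, hU Y' k1 W hW, by rw [map_sub, bk1_mul k1, bk1_mul (hle hW)]⟩
    · rintro _ ⟨W, hW, rfl⟩
      exact s6_dr1 (hle hW)
    · exact fun h => hZ0 (s6_ext (hle hZ) (zero_mem _) (h.trans (map_zero _).symm))
  obtain ⟨W, hW, h2⟩ := h1
  rwa [← s6_ext (hle hW) hX h2]

/-- The similitudes normalize the Lie algebra. -/
theorem Sim6.conj_s6 {γ : Gl F} {ε : Bool} {ν₁ ν₂ l : F} {φ : V6 A B C ≃ V6 A' B' C'}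
    (h : Sim6 γ ε ν₁ ν₂ l φ) {Y : End F (V6 A B C)} (hY : Y ∈ s6 A B C) :
    ∃ Z ∈ s6 A' B' C', ∀ v, φ (Y v) = Z (φ v) := by
  have hs : Semi (id : F → F) (φ ∘ Y ∘ φ.symm) := by
    have := h.semi.comp ((semi_lin Y).lin_comp h.semi.symm)
    rwa [mul_inv_cancel] at this
  refine ⟨hs.lin, fun v => ?_, fun v => (congrArg (φ ∘ Y) (φ.symm_apply_apply v)).symm⟩
  obtain ⟨v, rfl⟩ := φ.surjective v
  have h1 : hs.lin (φ v) = φ (Y v) := congrArg (φ ∘ Y) (φ.symm_apply_apply v)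
  obtain ⟨k1, k2, k3⟩ := hY v
  rw [h1, h.apply, h.apply (Y v)]
  simp only [tf_adj_of_cub h.pr.s1 h.pr.c1, tf_adj_of_cub h.pr.s2 h.pr.c2, h.pr.tf, ← mul_add,
    ← map_add]
  cases ε
  · simp [k1, k2, k3]
  · simp only [if_true, k1, k2, map_zero, mul_zero, true_and]
    rw [tf_comm, tf_comm v.2, add_comm, k3, map_zero, mul_zero]

theorem comm_Z6_s6 {z : Perm (V6 A B C)} (hz : z ∈ Z6 A B C) {Y : End F (V6 A B C)}
    (hY : Y ∈ s6 A B C) (v : V6 A B C) : z (Y v) = Y (z v) := by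
  obtain ⟨s, t, h⟩ := mem_Z6.1 hz
  rw [h, h, s6_apply hY, s6_apply hY]
  simp only [map_smul]

/-- The exponential of a derivation whose cube vanishes at `x` preserves the norm of `x`. -/
theorem cub_exp {Y : End F (Alb A B C)} (hY : Dr Y) {x : Alb A B C} (h3 : Y (Y (Y x)) = 0) :
    cub (x + Y x + (2 : F)⁻¹ • Y (Y x)) = cub x := by
  have k1 := hY x
  have k2 := hY.pol x x (Y x)
  have k3 := hY.pol x (Y x) (Y x)
  have k4 := hY.pol x x (Y (Y x))
  have k5 := hY.pol x (Y x) (Y (Y x))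
  have k6 := hY (Y x)
  have k7 := hY.pol (Y x) (Y x) (Y (Y x))
  have k8 := hY.pol (Y x) (Y (Y x)) (Y (Y x))
  have k9 := tf_adj_self (Y x)
  have k10 := tf_adj_self (Y (Y x))
  rw [cub_add3, cub_smul, adj_smul, cross_smul_right]
  simp only [h3, tf_zero_right, tf_smul_left, tf_smul_right] at *
  generalize Y (Y x) = c at *
  generalize Y x = b at *
  have e1 : ∀ u v : Alb A B C, tf (cross u v) v = 2 * tf (adj v) u := fun u v => by
    rw [tf_comm, cross_comm, tf_cross_self]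
  have e2 : ∀ u v : Alb A B C, tf (cross v u) v = 2 * tf (adj v) u := fun u v => by
    rw [tf_comm, tf_cross_self]
  have e3 : tf (cross x c) b = tf x (cross b c) := by rw [tf_cross, cross_comm]
  have e4 : tf (cross c x) b = tf x (cross b c) := by rw [cross_comm, e3]
  have e5 : tf (cross x b) c = tf x (cross b c) := tf_cross _ _ _
  have e6 : tf (cross b x) c = tf x (cross b c) := by rw [cross_comm, e5]
  simp only [Alb.cross_self, tf_smul_left, e1, e2, e3, e4, e5, e6] at k2 k3 k4 k5 k7 k8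
  linear_combination k1 + (1 / 4 : F) * k2 + (1 / 6 : F) * k3 + (1 / 12 : F) * k4 +
    (1 / 8 : F) * k5 + (1 / 4 : F) * k6 + (1 / 16 : F) * k7 + (1 / 48 : F) * k8 -
    (1 / 3 : F) * k9 - (1 / 24 : F) * k10

/-- The exponential of an element whose cube is zero. -/
def exp3 {V : Type} [AddCommGroup V] [Module F V] (Y : End F V) (h : Y ^ 3 = 0) : V ≃ₗ[F] V :=
  LinearEquiv.ofLinearMap (1 + Y + (2 : F)⁻¹ • (Y * Y)) (1 - Y + (2 : F)⁻¹ • (Y * Y))
    (by
      have h3 : ∀ v, Y (Y (Y v)) = 0 := fun v => by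
        simpa [pow_succ] using LinearMap.congr_fun h v
      ext v
      simp only [LinearMap.comp_apply, LinearMap.add_apply, LinearMap.sub_apply, End.one_apply,
        LinearMap.smul_apply, End.mul_apply, map_add, map_sub, map_smul, h3, map_zero,
        LinearMap.id_apply]
      match_scalars <;> norm_num)
    (by
      have h3 : ∀ v, Y (Y (Y v)) = 0 := fun v => by
        simpa [pow_succ] using LinearMap.congr_fun h v
      ext v
      simp only [LinearMap.comp_apply, LinearMap.add_apply, LinearMap.sub_apply, End.one_apply,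
        LinearMap.smul_apply, End.mul_apply, map_add, map_smul, h3, map_zero,
        LinearMap.id_apply]
      match_scalars <;> norm_num)

theorem exp3_apply {V : Type} [AddCommGroup V] [Module F V] (Y : End F V) (h : Y ^ 3 = 0) (v : V) :
    exp3 Y h v = v + Y v + (2 : F)⁻¹ • Y (Y v) := rfl

theorem exp3_mem {Y : End F (V6 A B C)} (hY : Y ∈ s6 A B C) (h : Y ^ 3 = 0) :
    ((exp3 Y h).toEquiv : Perm (V6 A B C)) ∈ S6 A B C := by
  have h3 : ∀ v, Y (Y (Y v)) = 0 := fun v => by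
    simpa [pow_succ] using LinearMap.congr_fun h v
  have e : ∀ v, (exp3 Y h).toEquiv v = (v.1 + bk1 Y v.1 + (2 : F)⁻¹ • bk1 Y (bk1 Y v.1),
      v.2 + bk2 Y v.2 + (2 : F)⁻¹ • bk2 Y (bk2 Y v.2)) := fun v => by
    rw [LinearEquiv.coe_toEquiv, exp3_apply, s6_apply hY (Y v), s6_apply hY v]
    rfl
  have k : ∀ v : V6 A B C, bk1 Y (bk1 Y (bk1 Y v.1)) = 0 ∧ bk2 Y (bk2 Y (bk2 Y v.2)) = 0 :=
    fun v => by
      have := h3 v
      rw [s6_apply hY, s6_apply hY (Y v), s6_apply hY v] at this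
      exact Prod.mk_eq_zero.1 this
  refine mem_S6.2 ⟨semi_lin (exp3 Y h).toLinearMap, fun v => ?_, fun v => ?_, fun v => ?_,
    one_ne_zero, one_ne_zero, one_ne_zero⟩
  · rw [e, one_mul]
    exact cub_exp (s6_dr1 hY) (k v).1
  · rw [e, one_mul]
    exact cub_exp (s6_dr2 hY) (k v).2
  · rw [e, one_mul]
    simp only [tf_add_left, tf_add_right, tf_smul_left, tf_smul_right, (s6_du hY).left, (k v).2,
      map_zero, tf_zero_right, id]
    ring

theorem exists_exp {Y : End F (V6 A B C)} (hY : Y ∈ s6 A B C) (h : Y ^ 3 = 0) :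
    ∃ g ∈ S6 A B C, ∀ v, g v = v + Y v + (2 : F)⁻¹ • Y (Y v) :=
  ⟨_, exp3_mem hY h, fun _ => rfl⟩

end Vale.Agent.P011N.Cl
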