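import Vale.Agent.P011N.Cl.T.E6

/-!
Jordan tools: the quadratic operator of the cubic norm, and the frames on a pencil.
-/

namespace Vale.Agent.P011N.Cl

open Vale.Agent.P011.MPQ Vale.Agent.P011.D4 Vale.Agent.P011.D4.Oct Vale.Agent.P011.E6 Equiv Module
open Vale.Agent.P011.E6.Alb

section uop

variable {F : Type} [Field F] {A B C : Fˣ}

/-- The quadratic operator `U_y`. -/
def uop (y z : Alb A B C) : Alb A B C := tf y z • y - cross (adj y) z

theorem uop_add (y z w : Alb A B C) : uop y (z + w) = uop y z + uop y w := by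
  rw [uop, uop, uop, tf_add_right, cross_add_right]
  module

theorem uop_smul (y : Alb A B C) (t : F) (z : Alb A B C) : uop y (t • z) = t • uop y z := by
  rw [uop, uop, tf_smul_right, cross_smul_right]
  module

theorem uop_smul_left (t : F) (y z : Alb A B C) : uop (t • y) z = t ^ 2 • uop y z := by
  rw [uop, uop, tf_smul_left, adj_smul, cross_smul_left]
  module

/-- The quadratic operator, as a linear map. -/
def uopL (y : Alb A B C) : Alb A B C →ₗ[F] Alb A B C where
  toFun := uop y
  map_add' := uop_add y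
  map_smul' := uop_smul y

theorem uopL_apply (y z : Alb A B C) : uopL y z = uop y z := rfl

theorem uop_zero (y : Alb A B C) : uop y 0 = 0 := map_zero (uopL y)

theorem tf_uop (y z w : Alb A B C) : tf (uop y z) w = tf z (uop y w) := by
  rw [uop, uop, tf_sub_left, tf_sub_right, tf_smul_left, tf_smul_right, cross_comm (adj y) z,
    tf_cross, tf_comm z y]
  ring

theorem tf_cross_self (y z : Alb A B C) : tf y (cross y z) = 2 * tf (adj y) z := by
  rw [← tf_cross, Alb.cross_self, tf_smul_left]

/-- The polarisation of the adjoint, as a bilinear map. -/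
def crossL (A B C : Fˣ) : Alb A B C →ₗ[F] Alb A B C →ₗ[F] Alb A B C :=
  LinearMap.mk₂ F cross cross_add_left cross_smul_left cross_add_right
    fun t x y => cross_smul_right t x y

/-- The trace form, as a bilinear map. -/
def tfL (A B C : Fˣ) : Alb A B C →ₗ[F] Alb A B C →ₗ[F] F :=
  LinearMap.mk₂ F tf tf_add_left tf_smul_left tf_add_right fun t x y => tf_smul_right t x y

theorem cub_add3 (x y z : Alb A B C) : cub (x + y + z) = cub x + cub y + cub z +
    tf (adj x) y + tf (adj x) z + tf (adj y) x + tf (adj y) z + tf (adj z) x + tf (adj z) y +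
    tf x (cross y z) := by
  rw [cub_add, cub_add, adj_add, tf_add_left, tf_add_left, tf_add_left, tf_cross,
    tf_comm x (adj y), tf_comm x (adj z), tf_comm y (adj z)]
  ring

variable [CharZero F]

theorem cub_of_adj {x : Alb A B C} (h : adj x = 0) : cub x = 0 := by
  have h1 := tf_adj_self x
  rw [h, tf_zero_left] at h1
  exact (mul_eq_zero.1 h1.symm).resolve_left three_ne_zero

theorem adj_adj_of {x : Alb A B C} (h : cub x = 0) : adj (adj x) = 0 := by
  rw [adj_adj, h, zero_smul]

theorem cross_cross_adj (y z : Alb A B C) :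
    cross y (cross (adj y) z) = tf y z • adj y + cub y • z := by
  refine eq_of_tf fun w => ?_
  rw [cross_comm y, tf_cross, cross_comm (adj y) z, tf_cross, cross_adj_cross, tf_add_right,
    tf_add_left, tf_smul_right, tf_smul_right, tf_smul_left, tf_smul_left, tf_comm z y]
  ring

theorem uop_adj (y z : Alb A B C) :
    uop (adj y) z = tf (adj y) z • adj y - cub y • cross y z := by
  rw [uop, adj_adj, cross_smul_left]

theorem uop_uop_adj (y z : Alb A B C) : uop y (uop (adj y) z) = cub y ^ 2 • z := by
  rw [uop_adj, uop, tf_sub_right, cross_sub_right, tf_smul_right, tf_smul_right, cross_smul_right,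
    cross_smul_right, Alb.cross_self, adj_adj, cross_adj_cross, tf_cross_self, tf_comm y (adj y),
    tf_adj_self]
  module

theorem uop_adj_uop (y z : Alb A B C) : uop (adj y) (uop y z) = cub y ^ 2 • z := by
  refine eq_of_tf fun w => ?_
  rw [tf_uop, tf_uop, uop_uop_adj, tf_smul_left, tf_smul_right]

theorem adj_uop (y z : Alb A B C) : adj (uop y z) = uop (adj y) (adj z) := by
  have h := adj_cross (adj y) z
  rw [adj_adj, cross_smul_left, tf_smul_left] at h
  rw [uop_adj, uop, sub_eq_add_neg, adj_add, adj_neg, cross_neg_right, adj_smul, cross_smul_left,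
    cross_cross_adj, eq_sub_of_add_eq h]
  module

theorem cross_uop (y z w : Alb A B C) :
    cross (uop y z) (uop y w) = uop (adj y) (cross z w) := by
  have h := adj_uop y (z + w)
  rw [uop_add, adj_add, adj_add, uop_add, uop_add, adj_uop, adj_uop] at h
  exact add_left_cancel (add_right_cancel h)

theorem tf_uop_uop (y z w : Alb A B C) :
    tf (uop y z) (uop (adj y) w) = cub y ^ 2 * tf z w := by
  rw [tf_uop, uop_uop_adj, tf_smul_right]

theorem cub_uop (y z : Alb A B C) : cub (uop y z) = cub y ^ 2 * cub z := by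
  have h := tf_adj_self (uop y z)
  rw [adj_uop, tf_comm, tf_uop_uop, tf_comm, tf_adj_self] at h
  linear_combination (-1 / 3 : F) * h

theorem uop_self_adj (y : Alb A B C) : uop y (adj y) = cub y • y := by
  rw [uop, Alb.cross_self, adj_adj, tf_comm, tf_adj_self]
  module

theorem uop_eq_zero {y z : Alb A B C} (hy : cub y ≠ 0) (h : uop y z = 0) : z = 0 := by
  have h1 := uop_adj_uop y z
  rw [h, uop_zero] at h1
  exact (smul_eq_zero.1 h1.symm).resolve_left (pow_ne_zero 2 hy)

omit [CharZero F] in
/-- For a vector of rank one, the quadratic operator has rank one. -/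
theorem uop_of_adj {y : Alb A B C} (h : adj y = 0) (z : Alb A B C) : uop y z = tf y z • y := by
  rw [uop, h, cross_zero_left, sub_zero]

/-- The quadratic operator of an invertible element. -/
def uopE (y : Alb A B C) (hy : cub y ≠ 0) : Alb A B C ≃ₗ[F] Alb A B C :=
  { uopL y with
    invFun := fun z => (cub y ^ 2)⁻¹ • uop (adj y) z
    left_inv := fun z => by
      change (cub y ^ 2)⁻¹ • uop (adj y) (uop y z) = z
      rw [uop_adj_uop, inv_smul_smul₀ (pow_ne_zero 2 hy)]
    right_inv := fun z => by
      change uop y ((cub y ^ 2)⁻¹ • uop (adj y) z) = z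
      rw [uop_smul, uop_uop_adj, inv_smul_smul₀ (pow_ne_zero 2 hy)] }

theorem uopE_apply (y : Alb A B C) (hy : cub y ≠ 0) (z : Alb A B C) : uopE y hy z = uop y z := rfl

theorem cub_adj_ne {y : Alb A B C} (hy : cub y ≠ 0) : cub (adj y) ≠ 0 := by
  rw [cub_adj]
  exact pow_ne_zero 2 hy

/-- The similitude of an invertible element which exchanges the two summands. -/
def u6 (y : Alb A B C) (hy : cub y ≠ 0) : Perm (V6 A B C) :=
  (Equiv.prodComm _ _).trans
    ((uopE y hy).toEquiv.prodCongr (uopE (adj y) (cub_adj_ne hy)).toEquiv)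

theorem u6_apply (y : Alb A B C) (hy : cub y ≠ 0) (x : V6 A B C) :
    u6 y hy x = (uop y x.2, uop (adj y) x.1) := rfl

theorem sim6_u6 (y : Alb A B C) (hy : cub y ≠ 0) :
    Sim6 id true (cub y ^ 2) (cub y ^ 4) (cub y ^ 2) (u6 y hy) where
  semi t x z := by
    simp only [u6_apply, Prod.fst_add, Prod.snd_add, Prod.smul_fst, Prod.smul_snd, uop_add,
      uop_smul, id, Prod.smul_mk, Prod.mk_add_mk]
  c1 x := cub_uop y x.2
  c2 x := by
    rw [u6_apply, cub_uop, cub_adj, ← pow_mul]
    rfl
  tf x := by
    rw [u6_apply, tf_uop_uop, tf_comm]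
    rfl
  ne := ⟨pow_ne_zero _ hy, pow_ne_zero _ hy, pow_ne_zero _ hy⟩

/-- The exchange of the two summands. -/
theorem sim6_swap : Sim6 id true 1 1 1 (Equiv.prodComm (Alb A B C) (Alb A B C)) where
  semi _ _ _ := rfl
  c1 _ := (one_mul _).symm
  c2 _ := (one_mul _).symm
  tf x := by
    rw [one_mul]
    exact tf_comm _ _
  ne := ⟨one_ne_zero, one_ne_zero, one_ne_zero⟩

/-! The pencils. -/

omit [CharZero F] in
theorem cub_pencil (s t : F) (x y : Alb A B C) : cub (s • x + t • y) =
    s ^ 3 * cub x + s ^ 2 * t * tf (adj x) y + s * t ^ 2 * tf x (adj y) + t ^ 3 * cub y := by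
  rw [cub_add, cub_smul, cub_smul, adj_smul, adj_smul, tf_smul_left, tf_smul_left, tf_smul_right,
    tf_smul_right]
  ring

/-- The adjoints of three singular elements of a pencil. -/
theorem tf_adj_pencil {x y : Alb A B C} (hx : cub x = 0) (hy : cub y = 0) (s t : F) :
    tf (adj (s • x + t • y)) (cross (adj x) (adj y)) =
      s * t * (tf (adj x) y * tf x (adj y)) := by
  have h1 : tf (adj x) (cross (adj x) (adj y)) = 0 := by
    rw [tf_cross_self, adj_adj_of hx, tf_zero_left, mul_zero]
  have h2 : tf (adj y) (cross (adj x) (adj y)) = 0 := by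
    rw [cross_comm, tf_cross_self, adj_adj_of hy, tf_zero_left, mul_zero]
  have h3 : tf (cross x y) (cross (adj x) (adj y)) = tf (adj x) y * tf x (adj y) := by
    rw [← tf_cross, cross_comm, cross_adj_cross, hx, zero_smul, zero_add, tf_smul_left]
  rw [adj_add, adj_smul, adj_smul, cross_smul_left, cross_smul_right, tf_add_left, tf_add_left,
    tf_smul_left, tf_smul_left, tf_smul_left, tf_smul_left, h1, h2, h3]
  ring

omit [CharZero F] in
/-- The cubic polynomial of a pair. -/
theorem cub_sub (u y : Alb A B C) (t : F) : cub (t • u - y) =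
    cub u * t ^ 3 - tf (adj u) y * t ^ 2 + tf u (adj y) * t - cub y := by
  have h := cub_pencil t (-1) u y
  rw [neg_one_smul, ← sub_eq_add_neg] at h
  rw [h]
  ring

/-- If the cubic polynomial of the pair has three distinct roots, the adjoints form a frame. -/
theorem frame_of_roots {u y : Alb A B C} (hu : cub u ≠ 0) {l : Fin 3 → F}
    (hl : Function.Injective l) (h : ∀ i, cub (l i • u - y) = 0) :
    (∀ i, adj (adj (l i • u - y)) = 0) ∧
      tf (adj (l 0 • u - y)) (cross (adj (l 1 • u - y)) (adj (l 2 • u - y))) ≠ 0 := by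
  refine ⟨fun i => adj_adj_of (h i), ?_⟩
  have h01 : l 0 - l 1 ≠ 0 := sub_ne_zero.2 (hl.ne (by decide))
  have h02 : l 0 - l 2 ≠ 0 := sub_ne_zero.2 (hl.ne (by decide))
  have h12 : l 1 - l 2 ≠ 0 := sub_ne_zero.2 (hl.ne (by decide))
  have e0 : l 0 • u - y = ((l 0 - l 2) / (l 1 - l 2)) • (l 1 • u - y) +
      (-(l 0 - l 1) / (l 1 - l 2)) • (l 2 • u - y) := by
    match_scalars <;> field_simp <;> ring
  have e1 : u = (1 / (l 1 - l 2)) • (l 1 • u - y) + (-1 / (l 1 - l 2)) • (l 2 • u - y) := by
    match_scalars <;> field_simp <;> ring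
  have k0 := h 0
  rw [e0, cub_pencil, h 1, h 2] at k0
  rw [e1, cub_pencil, h 1, h 2] at hu
  rw [e0, tf_adj_pencil (h 1) (h 2)]
  generalize tf (adj (l 1 • u - y)) (l 2 • u - y) = p at k0 hu ⊢
  generalize tf (l 1 • u - y) (adj (l 2 • u - y)) = q at k0 hu ⊢
  have k1 : (l 0 - l 2) * p = (l 0 - l 1) * q := by
    field_simp at k0
    have : (l 0 - l 2) * (l 0 - l 1) * ((l 0 - l 2) * p - (l 0 - l 1) * q) = 0 := by
      linear_combination -k0
    exact sub_eq_zero.1 ((mul_eq_zero.1 this).resolve_left (mul_ne_zero h02 h01))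
  have hp : p ≠ 0 := by
    rintro rfl
    have : q = 0 := (mul_eq_zero.1 (k1.symm.trans (mul_zero _))).resolve_left h01
    exact hu (by rw [this]; ring)
  have hq : q ≠ 0 := by
    rintro rfl
    exact hp ((mul_eq_zero.1 (k1.trans (mul_zero _))).resolve_left h02)
  exact mul_ne_zero (mul_ne_zero (div_ne_zero h02 h12) (div_ne_zero (neg_ne_zero.2 h01) h12))
    (mul_ne_zero hp hq)

end uop

section pm

variable {F U : Type} [Field F] {A B C : Fˣ} [AddCommGroup U] [Module F U] {f g : U → Alb A B C}

theorem PM.across (hf : PM F f) (hg : PM F g) : PM F fun x => cross (f x) (g x) :=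
  PM.bilin (crossL A B C) hf hg

theorem PM.aadj [CharZero F] (hf : PM F f) : PM F fun x => adj (f x) := by
  have h := PM.smul (PF.const (2 : F)⁻¹) (hf.across hf)
  simpa only [Alb.cross_self, inv_smul_smul₀ (two_ne_zero (α := F))] using h

theorem PM.auop [CharZero F] (hf : PM F f) (hg : PM F g) : PM F fun x => uop (f x) (g x) :=
  (PM.smul (hf.atf hg) hf).sub (hf.aadj.across hg)

end pm

end Vale.Agent.P011N.Cl
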