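import Vale.Agent.P011N.Cl.JT.Lie
import Vale.Agent.P011N.Cl.JT.Frame

/-!
Jordan tools: the operators of the pairs, the transvections, and the conjugacy of the frames and
of the opposite spaces.
-/

namespace Vale.Agent.P011N.Cl

open Vale.Agent.P011.MPQ Vale.Agent.P011.D4 Vale.Agent.P011.D4.Oct Vale.Agent.P011.E6 Equiv Module
open Vale.Agent.P011.E6.Alb Vale.Agent.P011.H327.Star

variable {F : Type} [Field F] {A B C A' B' C' : Fˣ}

/-- The first block of the operator of a pair. -/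
def vop (x ξ : Alb A B C) : End F (Alb A B C) where
  toFun y := tf ξ y • x - cross ξ (cross x y)
  map_add' y z := by
    rw [tf_add_right, cross_add_right, cross_add_right]
    module
  map_smul' t y := by
    rw [tf_smul_right, cross_smul_right, cross_smul_right, RingHom.id_apply]
    module

theorem vop_apply (x ξ y : Alb A B C) : vop x ξ y = tf ξ y • x - cross ξ (cross x y) := rfl

/-- The operator of a pair, as a linear map. -/
def VopL (x ξ : Alb A B C) : End F (V6 A B C) := (vop x ξ).prodMap (-vop ξ x)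

theorem VopL_apply' (x ξ : Alb A B C) (v : V6 A B C) :
    VopL x ξ v = (vop x ξ v.1, -vop ξ x v.2) := by
  rw [VopL, LinearMap.prodMap_apply, LinearMap.neg_apply]

theorem Vop_eq (x ξ : Alb A B C) (v : V6 A B C) : Vop x ξ v = (vop x ξ v.1, -vop ξ x v.2) := by
  rw [Vop, vop_apply, vop_apply, neg_sub]

theorem VopL_apply (x ξ : Alb A B C) (v : V6 A B C) : VopL x ξ v = Vop x ξ v := by
  rw [VopL_apply', Vop_eq]

theorem vop_add_left (x x' ξ : Alb A B C) : vop (x + x') ξ = vop x ξ + vop x' ξ :=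
  LinearMap.ext fun y => by
    simp only [vop_apply, LinearMap.add_apply, cross_add_left, cross_add_right]
    module

theorem vop_add_right (x ξ ξ' : Alb A B C) : vop x (ξ + ξ') = vop x ξ + vop x ξ' :=
  LinearMap.ext fun y => by
    simp only [vop_apply, LinearMap.add_apply, cross_add_left, tf_add_left]
    module

theorem vop_smul_left (t : F) (x ξ : Alb A B C) : vop (t • x) ξ = t • vop x ξ :=
  LinearMap.ext fun y => by
    simp only [vop_apply, LinearMap.smul_apply, cross_smul_left, cross_smul_right]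
    module

theorem vop_smul_right (t : F) (x ξ : Alb A B C) : vop x (t • ξ) = t • vop x ξ :=
  LinearMap.ext fun y => by
    simp only [vop_apply, LinearMap.smul_apply, cross_smul_left, tf_smul_left]
    module

/-- The operator of a pair, as a bilinear map. -/
def VopB (A B C : Fˣ) : Alb A B C →ₗ[F] Alb A B C →ₗ[F] End F (V6 A B C) :=
  LinearMap.mk₂ F VopL
    (fun x x' ξ => LinearMap.ext fun v => by
      simp only [VopL_apply', vop_add_left, vop_add_right, LinearMap.add_apply, neg_add,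
        Prod.mk_add_mk])
    (fun t x ξ => LinearMap.ext fun v => by
      simp only [VopL_apply', vop_smul_left, vop_smul_right, LinearMap.smul_apply, smul_neg,
        Prod.smul_mk])
    (fun x ξ ξ' => LinearMap.ext fun v => by
      simp only [VopL_apply', vop_add_left, vop_add_right, LinearMap.add_apply, neg_add,
        Prod.mk_add_mk])
    (fun t x ξ => LinearMap.ext fun v => by
      simp only [VopL_apply', vop_smul_left, vop_smul_right, LinearMap.smul_apply, smul_neg,
        Prod.smul_mk])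

theorem VopB_apply (x ξ : Alb A B C) : VopB A B C x ξ = VopL x ξ := rfl

theorem tf_vop (x ξ y η : Alb A B C) : tf (vop x ξ y) η = tf y (vop ξ x η) := by
  rw [vop_apply, vop_apply, tf_sub_left, tf_sub_right, tf_smul_left, tf_smul_right,
    cross_comm ξ, tf_cross, cross_comm x y, tf_cross, tf_comm y ξ]
  ring

theorem du_vop (x ξ : Alb A B C) : Du (vop x ξ) (-vop ξ x) := fun y η => by
  rw [tf_vop, LinearMap.neg_apply, tf_neg_right, add_neg_cancel]

variable [CharZero F]

theorem tf_adj_vop (x ξ y : Alb A B C) : tf (adj y) (vop x ξ y) = -(tf x ξ * cub y) := by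
  rw [vop_apply, tf_sub_right, tf_smul_right, cross_comm ξ, ← tf_cross, cross_comm x y,
    cross_adj_cross, tf_add_left, tf_smul_left, tf_smul_left, tf_comm y ξ]
  ring

theorem dr_vop {x ξ : Alb A B C} (h : tf x ξ = 0) : Dr (vop x ξ) := fun y => by
  rw [tf_adj_vop, h, zero_mul, neg_zero]

theorem VopL_mem {x ξ : Alb A B C} (h : tf x ξ = 0) : VopL x ξ ∈ s6 A B C :=
  prodMap_mem_s6 (dr_vop h) (du_vop x ξ)

/-- The operator of a pair is in the Lie algebra, up to a scalar. -/
theorem VopL_add_mem (x ξ : Alb A B C) :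
    VopL x ξ + (tf x ξ / 3) • (LinearMap.id.prodMap (-LinearMap.id)) ∈ s6 A B C := by
  refine mem_s6.2 ⟨vop x ξ + (tf x ξ / 3) • 1, -vop ξ x - (tf x ξ / 3) • 1, fun y => ?_,
    fun y η => ?_, fun v => ?_⟩
  · rw [LinearMap.add_apply, LinearMap.smul_apply, End.one_apply, tf_add_right, tf_smul_right,
      tf_adj_vop, tf_adj_self]
    ring
  · simp only [LinearMap.add_apply, LinearMap.sub_apply, LinearMap.neg_apply,
      LinearMap.smul_apply, End.one_apply, tf_add_left, tf_sub_right, tf_neg_right, tf_smul_left,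
      tf_smul_right, tf_vop]
    ring
  · exact Prod.ext (by simp [VopL_apply']) (by simp [VopL_apply', sub_eq_add_neg])

section nat

variable {γ : Gl F} {ε : Bool} {ν₁ ν₂ l : F}

theorem Pr6.vop {f g : Alb A B C → Alb A' B' C'} (h : Pr6 γ ν₁ ν₂ l f g) (x ξ y : Alb A B C) :
    vop (f x) (g ξ) (f y) = l • f (vop x ξ y) := by
  have h1 : ν₁ / l * (ν₂ / l) = l := by
    have := h.ne.2.2
    field_simp
    exact h.mul_eq
  rw [vop_apply, vop_apply, h.swap.tf, h.cross_eq, cross_smul_right, h.swap.cross_eq, smul_smul,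
    h1, h.s1.sub, h.s1.smul]
  module

variable {φ : V6 A B C ≃ V6 A' B' C'}

theorem Sim6.Vop_false (h : Sim6 γ false ν₁ ν₂ l φ) (x ξ : Alb A B C) (v : V6 A B C) :
    Vop (fs6 φ false x) (sn6 φ false ξ) (φ v) = l • φ (Vop x ξ v) := by
  obtain ⟨y, η⟩ := v
  rw [Vop_eq, Vop_eq, h.apply_false, h.apply_false, h.pr.vop, h.pr.swap.vop, h.pr.s2.neg,
    Prod.smul_mk, smul_neg]

theorem Sim6.Vop_true (h : Sim6 γ true ν₁ ν₂ l φ) (x ξ : Alb A B C) (v : V6 A B C) :
    Vop (fs6 φ true ξ) (sn6 φ true x) (φ v) = -l • φ (Vop x ξ v) := by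
  obtain ⟨y, η⟩ := v
  rw [Vop_eq, Vop_eq, h.apply_true, h.apply_true, h.pr.vop, h.pr.swap.vop, h.pr.s1.neg,
    Prod.smul_mk, smul_neg, neg_smul, neg_smul, neg_neg]

end nat

/-! The transvections. -/

/-- The full polarisation of `cross_cross_adj`. -/
theorem cross_cross_pol (x y z w : Alb A B C) :
    cross x (cross (cross y z) w) + cross y (cross (cross z x) w) + cross z (cross (cross x y) w) =
      tf x w • cross y z + tf y w • cross z x + tf z w • cross x y + tf x (cross y z) • w := by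
  have h1 := cross_cross_adj (x + y + z) w
  have h2 := cross_cross_adj (x + y) w
  have h3 := cross_cross_adj (y + z) w
  have h4 := cross_cross_adj (z + x) w
  have h5 := cross_cross_adj x w
  have h6 := cross_cross_adj y w
  have h7 := cross_cross_adj z w
  rw [cub_add3] at h1
  rw [cub_add] at h2 h3 h4
  simp only [adj_add, cross_add_left, cross_add_right, tf_add_left] at h1 h2 h3 h4
  rw [cross_comm x z] at h1
  rw [tf_comm x (adj y)] at h2
  rw [tf_comm y (adj z)] at h3
  rw [tf_comm z (adj x)] at h4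
  linear_combination (norm := module) h1 - h2 - h3 - h4 + h5 + h6 + h7

theorem cross_cross_cross_of_adj {ξ : Alb A B C} (h : adj ξ = 0) (η w : Alb A B C) :
    cross ξ (cross η (cross ξ w)) = tf ξ η • cross ξ w := by
  have h1 := cross_cross_pol ξ ξ w η
  have h2 : cross ξ ξ = 0 := by rw [Alb.cross_self, h, smul_zero]
  have h3 : tf ξ (cross ξ w) = 0 := by rw [tf_cross_self, h, tf_zero_left, mul_zero]
  rw [cross_comm w ξ, cross_comm (cross ξ w) η, h2, h3, cross_zero_left η,
    cross_zero_right w] at h1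
  refine smul_right_injective _ (two_ne_zero (α := F)) ?_
  linear_combination (norm := module) h1

theorem vop_vop {η ξ : Alb A B C} (h : adj ξ = 0) (h0 : tf ξ η = 0) (y : Alb A B C) :
    vop η ξ (vop η ξ y) = (-2 * tf ξ y) • cross ξ (adj η) := by
  rw [vop_apply η ξ y, vop_apply, tf_sub_right, tf_smul_right, tf_cross_self, h, h0,
    cross_sub_right, cross_sub_right, cross_smul_right, cross_smul_right, Alb.cross_self,
    cross_smul_right, cross_cross_cross_of_adj h, h0, tf_zero_left]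
  module

theorem vop_vop_vop {η ξ : Alb A B C} (h : adj ξ = 0) (h0 : tf ξ η = 0) (y : Alb A B C) :
    vop η ξ (vop η ξ (vop η ξ y)) = 0 := by
  rw [vop_vop h h0 y, map_smul, vop_apply, tf_cross_self, h, cross_cross_cross_of_adj h, h0,
    tf_zero_left]
  module

theorem vop_vop_vop' {η ξ : Alb A B C} (h : adj ξ = 0) (h0 : tf ξ η = 0) (y : Alb A B C) :
    vop ξ η (vop ξ η (vop ξ η y)) = 0 := eq_zero_of_tf fun z => by
  rw [tf_vop, tf_vop, tf_vop, vop_vop_vop h h0, tf_zero_right]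

theorem VopL_cube {x ζ : Alb A B C} (h : adj x = 0) (h0 : tf x ζ = 0) : VopL x ζ ^ 3 = 0 :=
  LinearMap.ext fun v => by
    simp only [pow_succ, pow_zero, one_mul, End.mul_apply, VopL_apply', map_neg, neg_neg,
      vop_vop_vop h h0, vop_vop_vop' h h0, neg_zero, LinearMap.zero_apply, Prod.mk_zero_zero]

theorem VopL_cube' {y ξ : Alb A B C} (h : adj ξ = 0) (h0 : tf ξ y = 0) : VopL y ξ ^ 3 = 0 :=
  LinearMap.ext fun v => by
    simp only [pow_succ, pow_zero, one_mul, End.mul_apply, VopL_apply', map_neg, neg_neg,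
      vop_vop_vop h h0, vop_vop_vop' h h0, neg_zero, LinearMap.zero_apply, Prod.mk_zero_zero]

/-- The transvection with the centre `x` in the first summand. -/
theorem exists_tvl {x ζ : Alb A B C} (h : adj x = 0) (h0 : tf x ζ = 0) : ∃ g ∈ S6 A B C,
    (∀ v, g v = v - Vop x ζ v + (2 : F)⁻¹ • Vop x ζ (Vop x ζ v)) ∧
    (∀ ξ, g (0, ξ) = (0, ξ + tf x ξ • ζ - cross x (cross ζ ξ) - tf x ξ • cross x (adj ζ))) ∧
    ∀ y, vop x ζ y = 0 → g (y, 0) = (y, 0) := by
  obtain ⟨g, h1, h2⟩ := exists_exp (neg_mem (VopL_mem h0))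
    (LinearMap.ext fun v => by
      have := LinearMap.congr_fun (VopL_cube h h0) v
      simp only [pow_succ, pow_zero, one_mul, End.mul_apply, LinearMap.neg_apply, map_neg, neg_neg,
        LinearMap.zero_apply] at this ⊢
      rw [this, neg_zero])
  refine ⟨g, h1, fun v => ?_, fun ξ => ?_, fun y hy => ?_⟩
  · simp only [h2, LinearMap.neg_apply, map_neg, neg_neg, ← VopL_apply, sub_eq_add_neg]
  · simp only [h2, LinearMap.neg_apply, map_neg, neg_neg, VopL_apply', map_zero, vop_vop h h0]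
    refine Prod.ext (by simp) ?_
    simp only [Prod.snd_add, Prod.snd_neg, Prod.smul_snd, vop_apply]
    match_scalars <;> ring
  · simp [h2, VopL_apply', hy]

/-- The transvection with the centre `ξ` in the second summand. -/
theorem exists_tvr {ξ z : Alb A B C} (h : adj ξ = 0) (h0 : tf ξ z = 0) : ∃ g ∈ S6 A B C,
    (∀ v, g v = v + Vop z ξ v + (2 : F)⁻¹ • Vop z ξ (Vop z ξ v)) ∧
    (∀ y, g (y, 0) = (y + tf ξ y • z - cross ξ (cross z y) - tf ξ y • cross ξ (adj z), 0)) ∧
    ∀ η, vop ξ z η = 0 → g (0, η) = (0, η) := by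
  obtain ⟨g, h1, h2⟩ := exists_exp (VopL_mem ((tf_comm _ _).trans h0)) (VopL_cube' h h0)
  refine ⟨g, h1, fun v => ?_, fun y => ?_, fun η hη => ?_⟩
  · simp only [h2, ← VopL_apply]
  · simp only [h2, VopL_apply', map_zero, vop_vop h h0]
    refine Prod.ext ?_ (by simp)
    simp only [Prod.fst_add, Prod.smul_fst, vop_apply]
    match_scalars <;> ring
  · simp [h2, VopL_apply', hη]

omit [CharZero F] in
/-- The transvection moves a vector of rank one to another one. -/
theorem tv_move {x ξ η : Alb A B C} (h1 : tf x ξ = 1) (h2 : adj ξ = adj η) :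
    ξ + tf x ξ • (η - ξ) - cross x (cross (η - ξ) ξ) - tf x ξ • cross x (adj (η - ξ)) = η := by
  rw [h1, sub_eq_add_neg η ξ, adj_add, adj_neg, cross_neg_right, cross_add_left, cross_neg_left,
    Alb.cross_self, ← h2]
  simp only [cross_add_right, cross_neg_right, cross_smul_right]
  module

theorem adj_of_cross_self {x : Alb A B C} (h : cross x x = 0) : adj x = 0 := by
  rw [Alb.cross_self] at h
  exact (smul_eq_zero.1 h).resolve_left two_ne_zero

theorem st_step {x ξ η : Fin 3 → Alb A B C} (hx : Sing3 x) (hξ : Sing3 ξ) (hη : Sing3 η)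
    (h1 : ∀ i j, tf (x i) (ξ j) = if i = j then 1 else 0)
    (h2 : ∀ i j, tf (x i) (η j) = if i = j then 1 else 0) (k : Fin 3) :
    ∃ g ∈ S6 A B C, ∃ ξ' : Fin 3 → Alb A B C, (∀ i, g (x i, 0) = (x i, 0)) ∧
      (∀ i, g (0, ξ i) = (0, ξ' i)) ∧ Sing3 ξ' ∧
      (∀ i j, tf (x i) (ξ' j) = if i = j then 1 else 0) ∧ ξ' k = η k ∧
      ∀ j, j ≠ k → ξ j = η j → ξ' j = η j := by
  obtain ⟨g, k1, -, k2, k3⟩ := exists_tvl (ζ := η k - ξ k) (adj_of_cross_self (hx k k))
    (by rw [tf_sub_right, h1, h2, sub_self])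
  have hs := sim6_one.2 (mem_S6.1 k1)
  have k4 : ∀ i, g (x i, 0) = (x i, 0) := fun i => k3 _ (by
    rw [vop_apply, hx, cross_zero_right, tf_comm, tf_sub_right, h1, h2, sub_self, zero_smul,
      sub_zero])
  have k5 : ∀ i, fs6 g false (x i) = x i := fun i => congrArg Prod.fst (k4 i)
  refine ⟨g, k1, fun i => sn6 g false (ξ i), k4, fun i => hs.inr _, fun i j => ?_, fun i j => ?_,
    ?_, fun j hj he => ?_⟩
  · rw [hs.pr.swap.cross_eq, hξ, hs.pr.s1.zero, smul_zero]
  · rw [← k5, hs.pr.tf, one_mul, h1]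
    rfl
  · refine (congrArg Prod.snd (k2 (ξ k))).trans (tv_move (by rw [h1, if_pos rfl]) ?_)
    rw [adj_of_cross_self (hξ k k), adj_of_cross_self (hη k k)]
  · refine (congrArg Prod.snd (k2 (ξ j))).trans ?_
    rw [h1, if_neg hj.symm, cross_sub_left, hξ, he, hη]
    simp

/-- (ST) -/
theorem stStmt : STStmt := by
  intro F _ _ a b c x ξ η hx hξ hη h1 h2
  obtain ⟨g0, m0, ξ0, a0, b0, c0, d0, e0, -⟩ := st_step hx hξ hη h1 h2 0
  obtain ⟨g1, m1, ξ1, a1, b1, c1, d1, e1, f1⟩ := st_step hx c0 hη d0 h2 1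
  obtain ⟨g2, m2, ξ2, a2, b2, -, -, e2, f2⟩ := st_step hx c1 hη d1 h2 2
  refine ⟨g2 * g1 * g0, mul_mem (mul_mem m2 m1) m0, fun i => ⟨?_, ?_⟩⟩
  · rw [Perm.mul_apply, Perm.mul_apply, a0, a1, a2]
  · rw [Perm.mul_apply, Perm.mul_apply, b0, b1, b2]
    congr 1
    fin_cases i
    exacts [f2 0 (by decide) (f1 0 (by decide) e0), f2 1 (by decide) e1, e2]

omit [CharZero F] in
theorem cross_ee_ee (i : Fin 3) : cross (ee (i + 1) : Alb A B C) (ee (i + 2)) = ee i := by
  fin_cases i
  exacts [cross_e2_e3, cross_e3_e1, cross_e1_e2]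

/-- Frames are conjugate. -/
theorem frame_conj {x : Fin 3 → Alb A B C} (hx : ∀ i, adj (x i) = 0)
    (h : tf (x 0) (cross (x 1) (x 2)) ≠ 0) : ∃ g ∈ S6 A B C, ∃ c : Fin 3 → F, (∀ i, c i ≠ 0) ∧
      ∀ i, g (ee i, 0) = c i • (x i, 0) ∧
        g (0, ee i) = (c (i + 1) * c (i + 2)) • (0, cross (x (i + 1)) (x (i + 2))) := by
  obtain ⟨g, h1, c, h2, h3⟩ := frame_lemma hx h
  have hs := sim6_one.2 (mem_S6.1 (inv_mem h1))
  have k : ∀ i, g⁻¹ (ee i, 0) = (c i)⁻¹ • (x i, 0) := fun i => by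
    rw [Perm.inv_eq_iff_eq, (sim6_one.2 (mem_S6.1 h1)).semi.smul, h3, Prod.smul_mk, smul_zero]
    exact Prod.ext (inv_smul_smul₀ (h2 i) _).symm rfl
  have k' : ∀ i, fs6 (g⁻¹ : Perm (V6 A B C)) false (ee i) = (c i)⁻¹ • x i := fun i =>
    congrArg Prod.fst (k i)
  refine ⟨g⁻¹, inv_mem h1, fun i => (c i)⁻¹, fun i => inv_ne_zero (h2 i), fun i => ⟨k i, ?_⟩⟩
  have k2 := hs.pr.cross (ee (i + 1)) (ee (i + 2))
  rw [one_smul, one_smul, cross_ee_ee, k', k', cross_smul_left, cross_smul_right, smul_smul] at k2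
  rw [hs.inr, ← k2, Prod.smul_mk, smul_zero]

/-- (FL) -/
theorem flStmt : FLStmt := by
  intro F _ _ x hx h
  obtain ⟨g, h1, c, -, h2⟩ := frame_conj hx h
  exact ⟨g, h1, fun i => ⟨⟨_, (h2 i).1⟩, _, (h2 i).2⟩⟩

end Vale.Agent.P011N.Cl
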